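import Vale.Agent.P210J.Euc
import Vale.Agent.P366M.Map

/-!
# P210J: slowly varying states along a neck are close to states of the limit hypersurface
-/

open Metric Filter Topology Set
open scoped ContDiff
open Vale.Agent.P366.Stmt (E)
open Vale.Agent.P366M Vale.Agent.P366M.Gr Vale.Agent.P366M.Y.C Vale.Agent.P210G
open Vale.Agent.P366D (pb snc ini pull Sub jm SmM)
open Vale.Agent.P366P (Cy Cv CvM CvT prd ini_snc snc_last sm_ini)
open Fin (last)

noncomputable section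

namespace Vale.Agent.P210J

section Mf

variable {n : ℕ} {M : Type} [Mf0 n M] {g g' : Fld n M} {v v' : Fin n → M → ℝ} {e e' : Ch n M}
  {x : M} {s a b : M → ℝ}

/-- interpolation of tensors -/
def lT (s : M → ℝ) (g g' : Fld n M) : Fld n M := fun x i j => (1 - s x) * g x i j + s x * g' x i j

/-- interpolation of 1-forms -/
def lC (s : M → ℝ) (v v' : Fin n → M → ℝ) : Fin n → M → ℝ :=
  fun i x => (1 - s x) * v i x + s x * v' i x

/-- interpolation of functions -/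
def lF (s a b : M → ℝ) : M → ℝ := fun x => (1 - s x) * a x + s x * b x

theorem met_lT (hs : Smooth s) (h : ∀ x, s x ∈ Icc (0 : ℝ) 1) (hg : Met g) (hg' : Met g') :
    Met (lT s g g') :=
  ⟨(SmT.smul (CD.sub cd_const hs) hg.sm).add (SmT.smul hs hg'.sm),
    fun x i j => by rw [lT, lT, hg.sy, hg'.sy], fun x => posDef_comb (hg.pos x) (hg'.pos x) (h x)⟩

theorem cc_lC (hs : Smooth s) (hv : CC ∞ v) (hv' : CC ∞ v') : CC ∞ (lC s v v') :=
  (CC.smul (CD.sub cd_const hs) hv).add (CC.smul hs hv')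

theorem sm_lF (hs : Smooth s) (ha : Smooth a) (hb : Smooth b) : Smooth (lF s a b) :=
  CD.add (CD.mul (CD.sub cd_const hs) ha) (CD.mul hs hb)

theorem rep_lT (e : Ch n M) (s : M → ℝ) (g g' : Fld n M) : rep e (lT s g g') = fun y i j =>
    (1 - s (e.symm y)) * rep e g y i j + s (e.symm y) * rep e g' y i j := by
  funext y i j
  simp only [rep, lT, Finset.mul_sum, ← Finset.sum_add_distrib]
  exact Finset.sum_congr rfl fun _ _ => Finset.sum_congr rfl fun _ _ => by ring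

theorem repC_lC (e : Ch n M) (s : M → ℝ) (v v' : Fin n → M → ℝ) : repC e (lC s v v') = fun i y =>
    (1 - s (e.symm y)) * repC e v i y + s (e.symm y) * repC e v' i y := by
  funext i y
  simp only [repC, lC, Finset.mul_sum, ← Finset.sum_add_distrib]
  exact Finset.sum_congr rfl fun _ _ => by ring

theorem RvE_rep (he : e ∈ At M) (hg : Met g) (hv : CC ∞ v) (y : E n) :
    RvE (rep e g) (repC e v) y = Rv g v (e.symm y) := by
  have h : shE (rep e g) (repC e v) = repV e (sh g v) := by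
    rw [show sh g v = fun i x => ∑ j, up g i j x * v j x from rfl,
      raise_rep he fun x i j => up g i j x]
    funext i y
    simp only [shE, up_rep]
  rw [RvE, h, scal_rep hg he, dv_rep hg he (dV_sh hg hv _), dot_rep he, Rv, iv_eq_ev, ev]

/-- slowly varying functions with values in the unit interval -/
structure Slow (δ : ℝ) (θ : ℝ → ℝ) : Prop where
  sm : ContDiff ℝ ∞ θ
  mem : ∀ r, θ r ∈ Icc (0 : ℝ) 1
  d1 : ∀ r, |deriv θ r| ≤ δ
  d2 : ∀ r, |deriv (deriv θ) r| ≤ δ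

theorem slow_const {σ : ℝ} (h : σ ∈ Icc (0 : ℝ) 1) : Slow 0 fun _ => σ :=
  ⟨contDiff_const, fun _ => h, by simp, by simp⟩

theorem Slow.mono {δ δ' : ℝ} {θ : ℝ → ℝ} (h : Slow δ θ) (k : δ ≤ δ') : Slow δ' θ :=
  ⟨h.sm, h.mem, fun r => (h.d1 r).trans k, fun r => (h.d2 r).trans k⟩

theorem Slow.shift {δ : ℝ} {θ : ℝ → ℝ} (h : Slow δ θ) (c : ℝ) : Slow δ fun r => θ (r + c) := by
  have e : deriv (fun r => θ (r + c)) = fun r => deriv θ (r + c) :=
    funext fun r => deriv_comp_add_const _ _ _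
  exact ⟨h.sm.comp (contDiff_id.add contDiff_const), fun _ => h.mem _, fun r => e ▸ h.d1 _,
    fun r => by rw [e, deriv_comp_add_const]; exact h.d2 _⟩

theorem Slow.smul {δ τ : ℝ} {θ : ℝ → ℝ} (h : Slow δ θ) (hτ : τ ∈ Icc (0 : ℝ) 1) :
    Slow δ fun r => τ * θ r := by
  have e : deriv (fun r => τ * θ r) = fun r => τ * deriv θ r :=
    funext fun r => deriv_const_mul_field _
  have k : ∀ t, |t| ≤ δ → |τ * t| ≤ δ := fun t q => by
    rw [abs_mul, abs_of_nonneg hτ.1]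
    exact (mul_le_of_le_one_left (abs_nonneg t) hτ.2).trans q
  exact ⟨contDiff_const.mul h.sm, fun r => ⟨mul_nonneg hτ.1 (h.mem r).1,
    mul_le_one₀ hτ.2 (h.mem r).1 (h.mem r).2⟩, fun r => e ▸ k _ (h.d1 r),
    fun r => by rw [e, deriv_const_mul_field]; exact k _ (h.d2 r)⟩

/-- the curvature of the slowly varying state on the product, in the chart `e` -/
def Md (e : Ch n M) (θ : ℝ → ℝ) (g g' : Fld n M) (v v' : Fin n → M → ℝ) : E (n + 1) → ℝ :=
  RvE (mT θ ini (rep e g) (rep e g')) (mC θ ini (repC e v) (repC e v'))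

variable (hg : Met g) (hg' : Met g') (hv : CC ∞ v) (hv' : CC ∞ v')
include hg hg' hv hv'

theorem Md_const (he : e ∈ At M) {σ : ℝ} (h : σ ∈ Icc (0 : ℝ) 1) (y : E (n + 1)) :
    Md e (fun _ => σ) g g' v v' y = Rv (lT (fun _ => σ) g g') (lC (fun _ => σ) v v')
      (e.symm (ini y)) := by
  rw [Md, funext (mT_at _ _ _), mC_const, RvE_prd (met_comb (hg.rep he) (hg'.rep he) h),
    ← RvE_rep he (met_lT cd_const (fun _ => h) hg hg') (cc_lC cd_const hv hv'), rep_lT, repC_lC]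

theorem Md_chart (he : e ∈ At M) (he' : e' ∈ At M) {δ : ℝ} {θ : ℝ → ℝ} (h : Slow δ θ)
    (y : E (n + 1)) (hy : e.symm (ini y) ∈ e'.source) : Md e θ g g' v v' y =
      Md e' (fun r => θ (r + y (last n))) g g' v v' (snc (e' (e.symm (ini y))) 0) := by
  have k := law_th (τ := tm e e') (s := -y (last n)) (y := y) (h.shift (y (last n))).sm
    (h.shift (y (last n))).mem (hg.rep he') (hg'.rep he') (hg.rep he) (hg'.rep he) (hv _ he')
    (hv' _ he') (v₀' := repC e v) (v₁' := repC e v') (by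
      filter_upwards [(cont_symm he).continuousAt.eventually (e'.open_source.mem_nhds hy)] with z q
      exact ⟨tm_cd he he' q, funext₂ (rep_tm g he he' q), funext₂ (rep_tm g' he he' q),
        fun i => ⟨repC_tm v he he' q i, repC_tm v' he he' q i⟩⟩)
  simp only [neg_add_cancel_right, th, add_neg_cancel] at k
  exact k

/-- **slow variation** -/
theorem Md_slow {K : Set M} (hK : IsCompact K) {ε : ℝ} (hε : 0 < ε) : ∃ δ > (0 : ℝ), ∀ θ, Slow δ θ →
    ∀ e ∈ At M, ∀ y, e.symm (ini y) ∈ K → |Md e θ g g' v v' y - Rv (lT (fun _ => θ (y (last n))) g g')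
      (lC (fun _ => θ (y (last n))) v v') (e.symm (ini y))| ≤ ε := by
  have key := ((isCompact_Icc (a := (0 : ℝ)) (b := 1)).prod hK).eventually_forall_of_forall_eventually
    (x₀ := (0 : ℝ)) (P := fun δ p => ∀ θ, Slow δ θ → ∀ e ∈ At M, ∀ y, e.symm (ini y) = p.2 →
      θ (y (last n)) = p.1 → |Md e θ g g' v v' y -
        Rv (lT (fun _ => p.1) g g') (lC (fun _ => p.1) v v') p.2| ≤ ε) fun p hp => by
    obtain ⟨σ, z⟩ := p
    let J := {q : ℝ × (ℝ → ℝ) // Slow q.1 q.2}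
    let φ : J → ℝ × ℝ := fun q => (q.1.1, q.1.2 0)
    let o : J := ⟨(0, fun _ => σ), slow_const hp.1⟩
    have ho : pure o ≤ comap φ (𝓝 (0, σ)) := tendsto_pure_nhds φ o |>.le_comap
    have t1 : Tendsto (fun q : J × ℝ => q.1.1.1) (comap φ (𝓝 (0, σ)) ×ˢ 𝓝 0) (𝓝 0) :=
      (continuous_fst.tendsto (0, σ)).comp (tendsto_comap.comp tendsto_fst)
    have t2 : Tendsto (fun q : J × ℝ => q.1.1.2 0) (comap φ (𝓝 (0, σ)) ×ˢ 𝓝 0) (𝓝 σ) :=
      (continuous_snd.tendsto (0, σ)).comp (tendsto_comap.comp tendsto_fst)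
    have c1 : Cv (comap φ (𝓝 (0, σ))) o 2 (fun q w => q.1.2 (w (last n))) (snc (pt z) 0) := by
      refine cv_last ho (fun q => q.2.sm) fun j hj => ?_
      rw [snc_last]
      interval_cases j
      · have t3 : Tendsto (fun q : J × ℝ => q.1.1.2 q.2 - q.1.1.2 0)
            (comap φ (𝓝 (0, σ)) ×ˢ 𝓝 0) (𝓝 0) := by
          refine squeeze_zero_norm (fun q => ?_) (by simpa using t1.mul tendsto_snd.norm)
          simpa using convex_univ.norm_image_sub_le_of_norm_deriv_le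
            (fun r _ => q.1.2.sm.differentiable (by simp) r) (fun r _ => q.1.2.d1 r)
            (mem_univ 0) (mem_univ q.2)
        simpa using t3.add t2
      · simpa [o] using squeeze_zero_norm (fun q : J × ℝ => q.1.2.d1 q.2) t1
      · simpa [o] using squeeze_zero_norm (fun q : J × ℝ => q.1.2.d2 q.2) t1
    have c2 : CvM (comap φ (𝓝 (0, σ))) o 3 (fun _ => ini) (snc (pt z) 0) :=
      ⟨ho, fun b => P366P.cv_fix ho 3 (.of_forall fun _ =>
        (contDiff_euclidean.1 sm_ini b).contDiffAt)⟩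
    have he := ch_mem z
    have c3 := (cv_RvE (m := 0) (cv_mT c2 c1 (hg.sm _ he) (hg'.sm _ he))
      ((met_mT o.2.sm o.2.mem (hg.rep he) (hg'.rep he)).pos _).det_pos
      (cv_mC (c2.mono (by norm_num)) c1.pred (hv _ he) (hv' _ he))).b0.cv
    obtain ⟨pa, ha, pb, hb, H⟩ := eventually_prod_iff.1 (Metric.tendsto_nhds.1 c3 _ (half_pos hε))
    rw [eventually_comap] at ha
    have s1 : Tendsto (fun q : ℝ × ℝ × M => q.2.2) (𝓝 (0, σ, z)) (𝓝 z) :=
      continuous_snd.snd.tendsto _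
    have s2 : Tendsto (fun w => snc (ch z w) (0 : ℝ)) (𝓝 z) (𝓝 (snc (pt z) 0)) :=
      (P366P.cont_snc.tendsto (pt z, 0)).comp
        (((ch z).continuousAt (mem_ch z)).tendsto.prodMk_nhds tendsto_const_nhds)
    have s3 : Tendsto (fun q : ℝ × ℝ × M => (q.1, q.2.1)) (𝓝 (0, σ, z)) (𝓝 (0, σ)) :=
      (continuous_fst.prodMk continuous_snd.fst).tendsto _
    have s4 : Tendsto (fun q : ℝ × ℝ × M => ((0 : ℝ), q.2.1)) (𝓝 (0, σ, z)) (𝓝 (0, σ)) :=
      (continuous_const.prodMk continuous_snd.fst).tendsto _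
    filter_upwards [s3.eventually ha, s4.eventually ha, (s2.comp s1).eventually hb,
      s1.eventually ((ch z).open_source.mem_nhds (mem_ch z))] with q a1 a2 a3 a4 θ hθ c hc y e1 e2
    have m : q.2.1 ∈ Icc (0 : ℝ) 1 := e2 ▸ hθ.mem _
    have b1 := H (a1 ⟨(q.1, _), hθ.shift (y (last n))⟩ (by simp [φ, e2])) a3
    have b2 := H (a2 ⟨(0, _), slow_const m⟩ rfl) a3
    have b3 := Md_const hg hg' hv hv' he m (snc (ch z q.2.2) 0)
    rw [ini_snc, (ch z).left_inv a4] at b3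
    rw [Md_chart hg hg' hv hv' hc he hθ y (e1 ▸ a4), e1, ← b3, ← Real.dist_eq]
    exact (dist_triangle_right _ _ _).trans ((add_le_add b1.le b2.le).trans_eq (add_halves ε))
  obtain ⟨δ, h1, h2⟩ := ((key.filter_mono nhdsWithin_le_nhds).and
    (self_mem_nhdsWithin (s := Ioi 0))).exists
  exact ⟨δ, h2, fun θ hθ c hc y hy => h1 (θ _, _) ⟨hθ.mem _, hy⟩ θ hθ c hc y rfl rfl⟩

end Mf

section Neck

variable {I : Type} {k : ℕ} {X : Type} [Mf0 (k + 1) X] {Z : Type} [Mf0 k Z] {e : Ch (k + 1) X}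
  {π : E (k + 1) → E k} {x : E (k + 1)} {g T T' : Fld (k + 1) X} {v U U' : Fin (k + 1) → X → ℝ}
  {l : Filter I} {u : I → X → ℝ} {S r : ℝ} {φ : E k → E (k + 1)} {y₀ : E k}
  {Ψ : I → E (k + 1) → E (k + 1)} {V B : Set X} {ι : Z → X} {c : Ch k Z}

theorem pt_Rv {u : X → ℝ} {Ψ : E (k + 1) → E (k + 1)} (h : Pt u e π Ψ x) (hu : Smooth u)
    (hg : Met g) (hv : CC ∞ v) :
    RvE (gp (rep e g) Ψ) (pc Ψ (repC e v)) x = Rv (gb g 1 u) v (e.symm (Ψ x)) := by
  obtain ⟨e', m', u', s1, s2, s3, -, s5⟩ := h.chart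
  have h1 : rep e' (gb g 1 u) =ᶠ[𝓝 x] gp (rep e g) Ψ :=
    EventuallyEq.trans (((cont_symm m').continuousAt.eventually (gb_congr (g := g) s2)).mono
      fun y q => by funext i j; simp only [rep, q]) (s5 g)
  have h2 : tm e' e =ᶠ[𝓝 x] Ψ := s3.mono fun y q => by rw [tm, q, right_inv h.mem]
  rw [← show e'.symm x = e.symm (Ψ x) from s3.self_of_nhds, ← RvE_rep m' (met_g hg hu) hv]
  refine RvE_congr h1.symm fun i => ?_
  filter_upwards [s3, h2.eventuallyEq_nhds] with y q q'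
  rw [repC_tm v m' h.mem (q ▸ symm_mem h.mem _), pc, jac_congr q', q'.self_of_nhds]

theorem dt_pc (h : Dt l u S ι e φ π y₀ r Ψ V c) (hι : Sub ι B) (hx : x ∈ Cy (closedBall y₀ r) S)
    (v : Fin (k + 1) → X → ℝ) (i : Fin (k + 1)) :
    pc (fam Ψ φ none) (repC e v) i =ᶠ[𝓝 x] pc ini (repC c (pullC ι v)) i :=
  (sm_ini.continuous.continuousAt.eventually (h.eq _ hx.1).eventually_nhds).mono fun y q => by
    have h2 : mp c e ι =ᶠ[𝓝 (ini y)] φ := q.mono fun w p => by rw [mp, p, right_inv h.rg.mem]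
    refine (pc_comp (h.rg.smφ.differentiable (by simp) _)
      (sm_ini.differentiable (by simp) _) i).trans (Finset.sum_congr rfl fun b _ => ?_)
    rw [repC_pull h.mem h.rg.mem (hι.sm _) (q.self_of_nhds ▸ symm_mem h.rg.mem _), pc,
      jac_congr h2, h2.self_of_nhds]

/-- the point `x` with the data `(g, v, a)` is `ε`-close to the point `z` of the hypersurface with
the data `(γ, w, b)` -/
structure Close {L : Type} (ι : Z → X) (ε : ℝ) (g : Fld (k + 1) X) (v : Fin (k + 1) → X → ℝ)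
    (a : L → X → ℝ) (x : X) (γ : Fld k Z) (w : Fin k → Z → ℝ) (b : L → Z → ℝ) (z : Z) : Prop where
  d : dist x (ι z) ≤ ε
  R : |Rv g v x - Rv γ w z| ≤ ε
  f : ∀ m, |a m x - b m z| ≤ ε
  gr : ∀ m, gn g (a m) x ≤ gn γ (b m) z + ε

theorem ip_model {γ : Fld k Z} (hγ : Met γ) (hc : c ∈ At Z) {θ : ℝ → ℝ} (hθ : ContDiff ℝ ∞ θ)
    {a b : Z → ℝ} (ha : Smooth a) (hb : Smooth b) (x : E (k + 1)) :
    P366Z.ip (prd (rep c γ)) (fun y => (1 - θ (y (last k))) * loc c a (ini y) +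
      θ (y (last k)) * loc c b (ini y)) (fun y => (1 - θ (y (last k))) * loc c a (ini y) +
      θ (y (last k)) * loc c b (ini y)) x = ip γ (lF (fun _ => θ (x (last k))) a b)
        (lF (fun _ => θ (x (last k))) a b) (c.symm (ini x)) +
      (deriv θ (x (last k)) * (b (c.symm (ini x)) - a (c.symm (ini x)))) ^ 2 := by
  have d0 := (sm_last (k := k) hθ).differentiable (by simp) x
  have d1 : DifferentiableAt ℝ (fun y => loc c a (ini y)) x :=
    ((ha c hc).comp sm_ini).differentiable (by simp) x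
  have d2 : DifferentiableAt ℝ (fun y => loc c b (ini y)) x :=
    ((hb c hc).comp sm_ini).differentiable (by simp) x
  have d3 := (sm_lF (s := fun _ => θ (x (last k))) cd_const ha hb).diff (c.symm (ini x))
  have h1 : ∀ i, P366.Stmt.pd i (fun y => (1 - θ (y (last k))) * loc c a (ini y) +
      θ (y (last k)) * loc c b (ini y)) x = (if i = last k then 1 else 0) * deriv θ (x (last k)) *
        (loc c b (ini x) - loc c a (ini x)) +
      (1 - θ (x (last k))) * P366.Stmt.pd i (fun y => loc c a (ini y)) x +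
        θ (x (last k)) * P366.Stmt.pd i (fun y => loc c b (ini y)) x := fun i => by
    rw [P366Z.pd_add ((d0.const_sub 1).fun_mul d1) (d0.fun_mul d2),
      P366Z.pd_mul (d0.const_sub 1) d1, P366Z.pd_mul d0 d2, P366Z.pd_const_sub, pd_last hθ]
    ring
  have h2 : ∀ i, P366.Stmt.pd i (loc c (lF (fun _ => θ (x (last k))) a b)) (ini x) =
      (1 - θ (x (last k))) * P366.Stmt.pd i (loc c a) (ini x) +
        θ (x (last k)) * P366.Stmt.pd i (loc c b) (ini x) := fun i => by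
    rw [← P366Z.pd_const_mul, ← P366Z.pd_const_mul, ← P366Z.pd_add
      (((ha c hc).differentiable (by simp) _).const_mul _)
      (((hb c hc).differentiable (by simp) _).const_mul _)]
    rfl
  rw [P366P.ip_prd (hγ.rep hc), ← ip_rep hc γ d3 d3, P366Z.ip]
  simp only [h1, h2, P366P.pd_cs, P366P.pd_la, (Fin.castSucc_lt_last _).ne, if_false, if_true]
  congr 1
  · exact Finset.sum_congr rfl fun _ _ => Finset.sum_congr rfl fun _ _ => by ring
  · simp only [loc]; ring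

theorem sqrt_add {a b : ℝ} (ha : 0 ≤ a) (hb : 0 ≤ b) : √(a + b) ≤ √a + √b :=
  Real.sqrt_le_iff.2 ⟨by positivity, by
    nlinarith [Real.sq_sqrt ha, Real.sq_sqrt hb, Real.sqrt_nonneg a, Real.sqrt_nonneg b]⟩

theorem pull_lT (ι : Z → X) (σ : ℝ) (T T' : Fld (k + 1) X) : pull ι (lT (fun _ => σ) T T') =
    lT (fun _ => σ) (pull ι T) (pull ι T') := by
  funext z i j
  simp only [lT, P366D.pull_apply, Finset.mul_sum, ← Finset.sum_add_distrib]
  exact Finset.sum_congr rfl fun _ _ => Finset.sum_congr rfl fun _ _ => by ring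

/-- the interpolated data on the graph of `u` are close to interpolated data on `K` -/
def Nk {L : Type} (ι : Z → X) (ε : ℝ) (K : Set Z) (T T' : Fld (k + 1) X)
    (U U' : Fin (k + 1) → X → ℝ) (a a' : L → X → ℝ) (s u : X → ℝ) (x : X) : Prop :=
  ∃ z ∈ K, ∃ σ ∈ Icc (0 : ℝ) 1, |s x - σ| ≤ ε ∧
    Close ι ε (gb (lT s T T') 1 u) (lC s U U') (fun m => lF s (a m) (a' m)) x
      (lT (fun _ => σ) (pull ι T) (pull ι T')) (lC (fun _ => σ) (pullC ι U) (pullC ι U'))
      (fun m => lF (fun _ => σ) (fun z => a m (ι z)) fun z => a' m (ι z)) z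

/-- **JET** -/
theorem jet (hι : Sub ι B) (hT : Met T) (hT' : Met T') (hU : CC ∞ U) (hU' : CC ∞ U') {L : Type}
    [Finite L] {a a' : L → X → ℝ} (ha : ∀ m, Smooth (a m)) (ha' : ∀ m, Smooth (a' m))
    {K K' : Set Z} (hK : IsCompact K) (hK' : IsCompact K') (hKK : ∀ z ∈ K, K' ∈ 𝓝 z) {ε : ℝ}
    (hε : 0 < ε) : ∃ δ > (0 : ℝ), ∀ θ, Slow δ θ → ∀ (I : Type) (l : Filter I) (u : I → X → ℝ)
      (S : ℝ), (∀ᶠ i in l, Smooth (u i)) → (∀ z ∈ K, Rg l u S ι z) → ∃ V, IsOpen V ∧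
      (∀ z ∈ K, ι z ∈ V) ∧ ∀ᶠ i in l, ∀ τ ∈ Icc (0 : ℝ) 1, ∀ x ∈ V, |u i x| ≤ S →
        Nk ι ε K' T T' U U' a a' (fun y => τ * θ (u i y)) (u i) x := by
  have γ0 := hι.met hT
  have γ1 := hι.met hT'
  have w0 := hU.pull le_rfl hι.sm
  have w1 := hU'.pull le_rfl hι.sm
  have b0 := fun m => P366D.smooth_comp hι.sm (ha m)
  have b1 := fun m => P366D.smooth_comp hι.sm (ha' m)
  obtain ⟨δ₁, δ1, h1⟩ := Md_slow γ0 γ1 w0 w1 hK' (half_pos hε)
  obtain ⟨δ₂, ⟨δ2, h2⟩, δ3⟩ := (((eventually_lt_nhds δ1).and (hK'.eventually_forall_of_forall_eventually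
    (x₀ := (0 : ℝ)) (P := fun δ z => ∀ m, δ * |a' m (ι z) - a m (ι z)| < ε / 2) fun z _ =>
      eventually_all.2 fun m => (continuous_fst.mul ((((b1 m).cont.sub (b0 m).cont).abs).comp
        continuous_snd)).continuousAt.eventually_lt continuousAt_const
          (by simpa using hε))).filter_mono nhdsWithin_le_nhds |>.and
    (self_mem_nhdsWithin (s := Ioi 0))).exists
  refine ⟨δ₂, δ3, fun θ hθ I l u S hu hr => ?_⟩
  have hs : ∀ᶠ i in l, Slab (u i) S := hu.mono fun i q =>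
    ⟨isClosed_le q.cont.abs continuous_const, fun _ _ => .of_forall fun _ => CD.contDiffAt q⟩
  refine (hK.induction_on (p := fun K => ∃ V, IsOpen V ∧ (∀ z ∈ K, ι z ∈ V) ∧ ∀ᶠ i in l,
    ∀ τ ∈ Icc (0 : ℝ) 1, ∀ x ∈ V, |u i x| ≤ S →
      Nk ι ε K' T T' U U' a a' (fun y => τ * θ (u i y)) (u i) x)
    ⟨∅, isOpen_empty, by simp, by simp⟩ (fun _ _ q ⟨V, p1, p2, p3⟩ => ⟨V, p1, fun z hz =>
      p2 z (q hz), p3⟩) (fun _ _ ⟨V, p1, p2, p3⟩ ⟨V', q1, q2, q3⟩ => ⟨V ∪ V', p1.union q1,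
      fun z hz => hz.imp (p2 z) (q2 z), (p3.and q3).mono fun i q τ hτ x hx =>
        hx.elim (q.1 τ hτ x) (q.2 τ hτ x)⟩) fun z hz => ?_)
  obtain ⟨e, φ, π, y₀, r, Ψ, V, c, h, hV, -, rfl⟩ := (hr z hz).dt hι univ_mem
  obtain ⟨r', p1, r0⟩ := ((((eventually_closedBall_subset
    ((cont_symm h.mem).continuousAt.preimage_mem_nhds (hKK _ hz))).and
      (eventually_le_nhds h.rg.r0)).filter_mono nhdsWithin_le_nhds).and
      (self_mem_nhdsWithin (s := Ioi 0))).exists
  have h' := h.rg.shrink r0 p1.2 univ_mem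
  have e0 := (h.eq _ (mem_closedBall_self h.rg.r0.le)).self_of_nhds
  refine ⟨_, mem_nhdsWithin_of_mem_nhds (hι.emb.continuous.continuousAt.preimage_mem_nhds
    (interior_mem_nhds.2 (e0 ▸ h'.nhd))), _, isOpen_interior, fun _ q => q, ?_⟩
  have key : ∀ p ∈ Icc (0 : ℝ) 1 ×ˢ Cy (closedBall y₀ r') S, ∀ᶠ q in l ×ˢ 𝓝 p,
      q.2 ∈ Icc (0 : ℝ) 1 ×ˢ Cy (closedBall y₀ r') S → Nk ι ε K' T T' U U' a a'
        (fun y => q.2.1 * θ (u q.1 y)) (u q.1) (e.symm (Ψ q.1 q.2.2)) := by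
    rintro ⟨τ, x⟩ ⟨hτ, hx'⟩
    have hx : x ∈ Cy (closedBall y₀ r) S := ⟨closedBall_subset_closedBall p1.2 hx'.1, hx'.2⟩
    have hθ' := hθ.smul hτ
    have ho : pure (none, τ) ≤ fl l ×ˢ 𝓝 τ := by
      rw [← prod_pure_pure]; exact prod_mono le_sup_right (pure_le_nhds τ)
    have c0 := h.rg.cvM hx
    have c1 : CvM (fl l ×ˢ 𝓝 τ) (none, τ) 3 (fun q => fam Ψ φ q.1) x :=
      ⟨ho, fun b => cv_reidx tendsto_fst ho rfl (c0.2 b)⟩
    have c2 : Cv (fl l ×ˢ 𝓝 τ) (none, τ) 2 (fun q w => q.2 * θ (w (last k))) x :=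
      (cv_par ho tendsto_snd x 2).mul (P366P.cv_fix ho 2 (.of_forall fun _ =>
        (sm_last hθ.sm).contDiffAt))
    have c3 := cv_mT (θ := fun q r => q.2 * θ r) c1 c2 (hT.sm _ h.rg.mem) (hT'.sm _ h.rg.mem)
    have l1 : mT (fun r => τ * θ r) (fam Ψ φ none) (rep e T) (rep e T') =ᶠ[𝓝 x]
        mT (fun r => τ * θ r) ini (rep c (pull ι T)) (rep c (pull ι T')) := by
      filter_upwards [h.lim_T hι hx T, h.lim_T hι hx T'] with y q q'
      funext i j
      simp only [mT, q, q']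
    have d0 : 0 < (P366.Stmt.mat (mT (fun r => τ * θ r) (fam Ψ φ none) (rep e T) (rep e T')) x).det := by
      rw [P366.Stmt.mat, l1.self_of_nhds]
      exact ((met_mT hθ'.sm hθ'.mem (γ0.rep h.mem) (γ1.rep h.mem)).pos x).det_pos
    have t0 : Tendsto (fun q : I × ℝ × E (k + 1) => ((some q.1, q.2.1), q.2.2)) (l ×ˢ 𝓝 (τ, x))
        ((fl l ×ˢ 𝓝 τ) ×ˢ 𝓝 x) := (((tendsto_fl l).comp tendsto_fst).prodMk
      ((continuous_fst.tendsto _).comp tendsto_snd)).prodMk
      ((continuous_snd.tendsto _).comp tendsto_snd)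
    have t1 := (cv_RvE (m := 0) c3 d0 (cv_mC (θ := fun q r => q.2 * θ r) (c1.mono (by norm_num))
      c2.pred (hU _ h.rg.mem) (hU' _ h.rg.mem))).b0.cv.comp t0
    rw [RvE_congr l1 (w' := mC (fun r => τ * θ r) ini (repC c (pullC ι U)) (repC c (pullC ι U')))
      fun i => ((dt_pc h hι hx U i).and (dt_pc h hι hx U' i)).mono fun y q => by
        simp only [mC, q.1, q.2]] at t1
    have c4 := fun m => (((P366P.cv_const ho 1 1).sub c2.pred).mul (cv_reidx tendsto_fst ho rfl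
      (h.cv_f hx (ha m)).pred.pred)).add (c2.pred.mul (cv_reidx tendsto_fst ho rfl
      (h.cv_f hx (ha' m)).pred.pred))
    have l2 : ∀ m, (fun y => (1 - τ * θ (y (last k))) * a m (e.symm (fam Ψ φ none y)) +
        τ * θ (y (last k)) * a' m (e.symm (fam Ψ φ none y))) =ᶠ[𝓝 x] fun y =>
        (1 - τ * θ (y (last k))) * loc c (fun z => a m (ι z)) (ini y) +
          τ * θ (y (last k)) * loc c (fun z => a' m (ι z)) (ini y) := fun m =>
      ((h.lim_f hx (a m)).and (h.lim_f hx (a' m))).mono fun y q => by simp only [q.1, q.2]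
    have t2 := fun m => (c4 m).b0.cv.comp t0
    have t3 := fun m => ((c3.pred.pred.ip d0 (c4 m) (c4 m)).b0.cv.comp t0).sqrt
    have t4 := ((cont_symm h.rg.mem).tendsto _).comp (c1.cv.comp t0)
    have t5 := c2.b0.cv.comp t0
    have zK : c.symm (ini x) ∈ K' := p1.1 hx'.1
    have a1 := h1 _ (hθ'.mono δ2.le) c h.mem x zK
    have m1 := met_lT (s := fun _ => τ * θ (x (last k))) cd_const (fun _ => hθ'.mem _) γ0 γ1
    filter_upwards [tendsto_fst.eventually ((h'.pt hs).and hu),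
      Metric.tendsto_nhds.1 t1 _ (half_pos hε), eventually_all.2 fun m =>
        Metric.tendsto_nhds.1 (t2 m) _ hε, eventually_all.2 fun m =>
        Metric.tendsto_nhds.1 (t3 m) _ (half_pos hε), Metric.tendsto_nhds.1 t4 _ hε,
        Metric.tendsto_nhds.1 t5 _ hε] with q q1 q2 q3 q4 q5 q6 q7
    have p := q1.1 _ q7.2
    have s1 : Smooth fun y => q.2.1 * θ (u q.1 y) := CD.mul cd_const (hθ.sm.compM q1.2)
    have s2 := fun y => (hθ.smul q7.1).mem (u q.1 y)
    have g1 : gp (rep e (lT (fun y => q.2.1 * θ (u q.1 y)) T T')) (Ψ q.1) =ᶠ[𝓝 q.2.2]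
        mT (fun r => q.2.1 * θ r) (Ψ q.1) (rep e T) (rep e T') := p.sm.mono fun y w => by
      funext i j
      simp only [gp, mT, rep_lT, pb, w.2, Finset.mul_sum, ← Finset.sum_add_distrib, add_left_inj]
      exact Finset.sum_congr rfl fun _ _ => Finset.sum_congr rfl fun _ _ => by ring
    refine ⟨_, zK, _, hθ'.mem (x (last k)), ?_, ?_, ?_, fun m => ?_, fun m => ?_⟩
    · simp only [p.sm.self_of_nhds.2]
      exact q6.le
    · rw [(h.eq _ hx.1).self_of_nhds]
      exact q5.le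
    · rw [← pt_Rv p q1.2 (met_lT s1 s2 hT hT') (cc_lC s1 hU hU'), RvE_congr g1
        (w' := mC (fun r => q.2.1 * θ r) (Ψ q.1) (repC e U) (repC e U')) fun i => p.sm.mono
          fun y w => by
            simp only [mC, repC_lC, pc, w.2, Finset.mul_sum, ← Finset.sum_add_distrib]
            exact Finset.sum_congr rfl fun _ _ => by ring]
      exact (abs_sub_le _ _ _).trans ((add_le_add q2.le a1).trans_eq (add_halves ε))
    · have := (q3 m).le
      have e2 := (l2 m).self_of_nhds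
      beta_reduce at e2
      rw [e2] at this
      simp only [lF, p.sm.self_of_nhds.2]
      exact this
    · have b2 := q4 m
      rw [P366Z.ip_of_eq (l1.self_of_nhds.trans (mT_at _ _ _ _)), P366Z.ip_congr (l2 m) (l2 m),
        show (fun z i j => (1 - τ * θ (x (last k))) * rep c (pull ι T) z i j +
          τ * θ (x (last k)) * rep c (pull ι T') z i j) = _ from (rep_lT c (fun _ => _) _ _).symm,
        ip_model m1 h.mem hθ'.sm (b0 m) (b1 m)] at b2
      rw [gn, ← p.ip _ ((sm_lF s1 (ha m) (ha' m)).diff _) (p.sm.mono fun y w => by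
        simp only [lF, w.2]; rfl), P366Z.ip_of_eq g1.self_of_nhds]
      have b3 := (mul_le_mul_of_nonneg_right (hθ'.d1 (x (last k))) (abs_nonneg _)).trans
        (h2 _ zK m).le
      rw [← abs_mul, ← Real.sqrt_sq_eq_abs] at b3
      have b4 := (abs_lt.1 b2).2
      refine le_trans (sub_lt_iff_lt_add'.1 b4).le ?_
      exact (add_le_add ((sqrt_add (m1.ip_nonneg _ _) (sq_nonneg _)).trans
        (add_le_add le_rfl b3)) le_rfl).trans_eq (by rw [add_assoc, add_halves]; rfl)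
  filter_upwards [P366P.ev_cpt (P := fun i p => p ∈ Icc (0 : ℝ) 1 ×ˢ Cy (closedBall y₀ r') S →
      Nk ι ε K' T T' U U' a a' (fun y => p.1 * θ (u i y)) (u i) (e.symm (Ψ i p.2)))
    (isCompact_Icc.prod (P366P.cpt_Cy (isCompact_closedBall y₀ r') S)) key, h'.cov]
    with i q1 q2 τ hτ x hx hS
  obtain ⟨_, ⟨y, hy, rfl⟩, rfl⟩ := q2 x (interior_subset hx) hS
  exact q1 (τ, y) ⟨hτ, hy⟩ ⟨hτ, hy⟩

end Neck

end Vale.Agent.P210J
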