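import Vale.Agent.P210J.Jet
import Vale.Agent.P210V.Ext
import Vale.Agent.P210U.Loc

/-!
# P210J: chains of states; the transplantation of a chain to a long neck
-/

open Metric Filter Topology Set
open scoped ContDiff
open Vale.Agent.P366M Vale.Agent.P366M.Gr Vale.Agent.P366M.Y.C Vale.Agent.P210G
open Vale.Agent.P366D (pull Sub)
open Vale.Agent.P210U (Up Rv_of_ev)

noncomputable section

namespace Vale.Agent.P210J

theorem exists_plateau {δ : ℝ} (hδ : 0 < δ) (S₀ : ℝ) : ∃ θ S, S₀ ≤ S ∧ 0 < S ∧ Slow δ θ ∧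
    (∀ r, |r| ≤ S₀ → θ r = 1) ∧ ∀ r, S ≤ |r| → θ r = 0 := by
  let φ : ContDiffBump (0 : ℝ) := ⟨1, 2, one_pos, one_lt_two⟩
  have s0 : ContDiff ℝ ∞ φ := φ.contDiff
  obtain ⟨A, hA⟩ := (s0.continuous_deriv (by simp)).bounded_above_of_compact_support
    φ.hasCompactSupport.deriv
  obtain ⟨B, hB⟩ := (s0.deriv'.continuous_deriv (n := ∞) (by simp)).bounded_above_of_compact_support
    φ.hasCompactSupport.deriv.deriv
  have t : ∀ c : ℝ, ∀ᶠ a in 𝓝 (0 : ℝ), a * c < min δ 1 := fun c =>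
    (continuous_id.mul continuous_const).continuousAt.eventually_lt continuousAt_const
      (by simpa using hδ)
  obtain ⟨a, ⟨⟨⟨h1, h2⟩, h3⟩, h4⟩, a0⟩ := ((((((t A).and (t B)).and (t |S₀|)).and (t 1)).filter_mono
    nhdsWithin_le_nhds).and (self_mem_nhdsWithin (s := Ioi 0))).exists
  have a0 : 0 < a := a0
  simp only [lt_min_iff, mul_one] at h1 h2 h3 h4
  have e : ∀ f : ℝ → ℝ, deriv (fun r => f (a * r)) = fun r => a * deriv f (a * r) := fun f =>
    funext fun r => deriv_comp_mul_left a f r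
  refine ⟨fun r => φ (a * r), 2 / a, ?_, by positivity, ⟨s0.comp (by fun_prop),
    fun r => ⟨φ.nonneg, φ.le_one⟩, fun r => ?_, fun r => ?_⟩, fun r hr => φ.one_of_mem_closedBall ?_,
    fun r hr => φ.zero_of_le_dist ?_⟩
  · rw [le_div_iff₀ a0]
    nlinarith [le_abs_self S₀]
  · rw [e, abs_mul, abs_of_pos a0]
    exact (mul_le_mul_of_nonneg_left (hA _) a0.le).trans h1.1.le
  · rw [e, deriv_const_mul_field', e]
    simp only [abs_mul, abs_of_pos a0]
    exact (mul_le_of_le_one_left (by positivity) h4.2.le).trans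
      ((mul_le_mul_of_nonneg_left (hB _) a0.le).trans h2.1.le)
  · rw [mem_closedBall_zero_iff, Real.norm_eq_abs, abs_mul, abs_of_pos a0]
    exact (mul_le_mul_of_nonneg_left (hr.trans (le_abs_self _)) a0.le).trans h3.2.le
  · rw [dist_zero_right, Real.norm_eq_abs, abs_mul, abs_of_pos a0, mul_comm]
    exact (div_le_iff₀ a0).1 hr

section Mf

variable {n : ℕ} {M : Type} [Mf0 n M]

/-- a metric and a drift -/
abbrev St (n : ℕ) (M : Type) := Fld n M × (Fin n → M → ℝ)

/-- the segment from `s` to `s'` is supported in `K` and has the curvature at least `P` on `K` -/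
structure Seg (K : Set M) (P : M → ℝ) (s s' : St n M) : Prop where
  met : Met s'.1
  cc : CC ∞ s'.2
  off : ∀ x ∉ K, s'.1 x = s.1 x ∧ ∀ i, s'.2 i x = s.2 i x
  val : ∀ σ ∈ Icc (0 : ℝ) 1, ∀ x ∈ K,
    P x ≤ Rv (lT (fun _ => σ) s.1 s'.1) (lC (fun _ => σ) s.2 s'.2) x

/-- chains of segments whose vertices have larger metrics than the first one -/
def Reach (K : Set M) (P : M → ℝ) (s s' : St n M) : Prop :=
  Relation.ReflTransGen (fun a b => Seg K P a b ∧ Up s.1 b.1) s s'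

variable {K K' : Set M} {P P' : M → ℝ} {s s' s'' : St n M}

theorem met_up {g g' : Fld n M} (h : Up g g') (hg : Met g) (h1 : SmT g')
    (h2 : ∀ x i j, g' x i j = g' x j i) : Met g' :=
  ⟨h1, h2, fun x => Matrix.PosDef.of_dotProduct_mulVec_pos (by ext i j; exact h2 x j i) fun ξ hξ => by
    have := ((hg.pos x).dotProduct_mulVec_pos hξ)
    rw [star_trivial, ← quad_dot] at this ⊢
    exact this.trans_le (h x ξ)⟩

theorem lT_one (g g' : Fld n M) : lT (fun _ => 1) g g' = g' := by funext x i j; simp [lT]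

theorem lC_one (v v' : Fin n → M → ℝ) : lC (fun _ => 1) v v' = v' := by funext i x; simp [lC]

theorem Reach.ok (h : Reach K P s s') (hg : Met s.1) (hv : CC ∞ s.2) : Met s'.1 ∧ CC ∞ s'.2 := by
  rcases h.cases_tail with rfl | ⟨_, -, k⟩
  exacts [⟨hg, hv⟩, ⟨k.1.met, k.1.cc⟩]

theorem Reach.up (h : Reach K P s s') : Up s.1 s'.1 := by
  rcases h.cases_tail with rfl | ⟨_, -, k⟩
  exacts [fun _ _ => le_rfl, k.2]

theorem Reach.val (h : Reach K P s s') (h0 : ∀ x ∈ K, P x ≤ Rv s.1 s.2 x) :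
    ∀ x ∈ K, P x ≤ Rv s'.1 s'.2 x := by
  rcases h.cases_tail with rfl | ⟨_, -, k⟩
  · exact h0
  · simpa only [lT_one, lC_one] using k.1.val 1 ⟨zero_le_one, le_rfl⟩

theorem Reach.off (h : Reach K P s s') : ∀ x ∉ K, s'.1 x = s.1 x ∧ ∀ i, s'.2 i x = s.2 i x := by
  induction h with
  | refl => exact fun _ _ => ⟨rfl, fun _ => rfl⟩
  | tail _ k ih => exact fun x hx => ⟨(k.1.off x hx).1.trans (ih x hx).1,
      fun i => ((k.1.off x hx).2 i).trans ((ih x hx).2 i)⟩

theorem Reach.trans (h : Reach K P s s') (k : Reach K P s' s'') : Reach K P s s'' := by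
  induction k with
  | refl => exact h
  | tail _ q ih => exact .tail ih ⟨q.1, h.up.trans q.2⟩

theorem Seg.reach (h : Seg K P s s') (k : Up s.1 s'.1) : Reach K P s s' := .single ⟨h, k⟩

theorem Reach.anti (h : Reach K P s s') (k : ∀ x ∈ K, P' x ≤ P x) : Reach K P' s s' := by
  induction h with
  | refl => exact .refl
  | tail _ q ih => exact .tail ih ⟨⟨q.1.met, q.1.cc, q.1.off,
      fun σ a x b => (k x b).trans (q.1.val σ a x b)⟩, q.2⟩

theorem Seg.val_off (h : Seg K P s s') (hK : IsClosed K) {x : M} (hx : x ∉ K) (σ : ℝ) :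
    Rv (lT (fun _ => σ) s.1 s'.1) (lC (fun _ => σ) s.2 s'.2) x = Rv s.1 s.2 x :=
  Rv_of_ev (eventually_of_mem (hK.isOpen_compl.mem_nhds hx) fun y q => by
    funext i j; rw [lT, (h.off y q).1]; ring) fun i =>
    eventually_of_mem (hK.isOpen_compl.mem_nhds hx) fun y q => by rw [lC, (h.off y q).2]; ring

theorem Reach.val_off (h : Reach K P s s') (hK : IsClosed K) {x : M} (hx : x ∉ K) :
    Rv s'.1 s'.2 x = Rv s.1 s.2 x :=
  Rv_of_ev (eventually_of_mem (hK.isOpen_compl.mem_nhds hx) fun y q => (h.off y q).1) fun i =>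
    eventually_of_mem (hK.isOpen_compl.mem_nhds hx) fun y q => (h.off y q).2 i

/-- a larger set -/
theorem Reach.mono (h : Reach K P s s') (hK : IsClosed K) (k : K ⊆ K')
    (h0 : ∀ x ∈ K', x ∉ K → P x ≤ Rv s.1 s.2 x) : Reach K' P s s' := by
  induction h with
  | refl => exact .refl
  | tail p q ih =>
    refine .tail ih ⟨⟨q.1.met, q.1.cc, fun x hx => q.1.off x fun w => hx (k w),
      fun σ a x b => ?_⟩, q.2⟩
    by_cases w : x ∈ K
    · exact q.1.val σ a x w
    · rw [q.1.val_off hK w, Reach.val_off p hK w]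
      exact h0 x b w

end Mf

variable {I : Type} {k : ℕ} {X : Type} [Mf0 (k + 1) X] {Z : Type} [Mf0 k Z] {g : Fld (k + 1) X}
  {U₀ : Fin (k + 1) → X → ℝ} {l : Filter I} {u : I → X → ℝ} {A B W : Set X} {ι : Z → X}
  {K K' : Set Z} {P : X → ℝ}

/-- the slabs converge to the cylinder over `A`, whose regular part is `ι` -/
structure Nck (l : Filter I) (u : I → X → ℝ) (A B : Set X) (ι : Z → X) : Prop where
  sub : Sub ι B
  sm : ∀ᶠ i in l, Smooth (u i)
  rg : ∀ S > (0 : ℝ), ∀ z, Rg l u S ι z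
  conc : ∀ S N, IsOpen N → A ⊆ N → ∀ᶠ i in l, ∀ x, |u i x| ≤ S → x ∈ N

theorem pull_sub (ι : Z → X) (g T : Fld (k + 1) X) {γ : Fld k Z}
    (h : pull ι T = fun z i j => γ z i j - pull ι g z i j) :
    pull ι (fun x i j => g x i j + T x i j) = γ := by
  rw [P366D.pull_add, h]; funext z i j; ring

theorem pullC_sub (ι : Z → X) (v U : Fin (k + 1) → X → ℝ) {w : Fin k → Z → ℝ}
    (h : pullC ι U = fun i z => w i z - pullC ι v i z) :
    pullC ι (fun i x => v i x + U i x) = w := by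
  funext i z
  have := congrFun₂ h i z
  simp only [pullC, mul_add, Finset.sum_add_distrib] at this ⊢
  linarith

/-- **TRANS** -/
theorem trans (N : Nck l u A B ι) (hg : Met g) (hU : CC ∞ U₀) (hP : Continuous P)
    (hK : IsCompact K) (hK' : IsCompact K') (hKK : K ⊆ interior K') (hW : IsOpen W)
    (hKW : ∀ z ∈ K, ι z ∈ W) (hA : W ∩ A ⊆ range ι)
    (h0 : ∀ z ∈ K', P (ι z) ≤ Rv (pull ι g) (pullC ι U₀) z) {ε : ℝ} (hε : 0 < ε) :
    ∃ C, IsCompact C ∧ C ⊆ W ∧ ∀ s, Reach K (fun z => P (ι z)) (pull ι g, pullC ι U₀) s →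
      ∃ T U, Met T ∧ CC ∞ U ∧ Up g T ∧ pull ι T = s.1 ∧ pullC ι U = s.2 ∧
        (∀ x ∉ C, T x = g x ∧ ∀ j, U j x = U₀ j x) ∧ ∀ S₀, ∃ S, S₀ ≤ S ∧ ∀ᶠ i in l,
        ∀ (v : Fin (k + 1) → X → ℝ) (Y : Set X), CC ∞ v → (∀ x ∈ W, |u i x| ≤ S → x ∈ Y) →
          (∀ x ∈ W, |u i x| ≤ S → ∀ j, v j x = U₀ j x) →
          (∀ x ∈ Y, P x - ε ≤ Rv (gb g 1 (u i)) v x) →
          ∃ s', Reach Y (fun x => P x - ε) (gb g 1 (u i), v) s' ∧
            (∀ x, |u i x| ≤ S₀ → s'.1 x = gb T 1 (u i) x ∧ (x ∈ W → ∀ j, s'.2 j x = U j x)) ∧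
            ∀ x, x ∉ C ∨ S < |u i x| → s'.1 x = gb g 1 (u i) x ∧ ∀ j, s'.2 j x = v j x := by
  have hι := N.sub
  have ci := hι.emb.continuous
  obtain ⟨K₂, k1, k2, k3⟩ := exists_compact_between hK isOpen_interior hKK
  obtain ⟨O, o1, o2⟩ := hι.emb.isInducing.isOpen_iff.1 (isOpen_interior (s := K₂))
  obtain ⟨C, c1, c2, eT, eC, -⟩ := P210V.ext hι hK (hW.inter o1) fun z hz =>
    ⟨hKW z hz, show z ∈ ι ⁻¹' O from o2 ▸ k2 hz⟩
  have γ0 := hι.met hg
  have w0 := hU.pull le_rfl hι.sm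
  obtain ⟨η, η0, hη⟩ := Metric.uniformContinuousOn_iff_le.1
    ((c1.union (hK'.image ci)).uniformContinuousOn_of_continuous hP.continuousOn) _ (half_pos hε)
  refine ⟨C, c1, c2.trans inter_subset_left, fun s h => ?_⟩
  induction h with
  | refl => exact ⟨g, U₀, hg, hU, fun _ _ => le_rfl, rfl, rfl, fun _ _ => ⟨rfl, fun _ => rfl⟩,
      fun S₀ => ⟨S₀, le_rfl, .of_forall fun i v Y _ _ a _ => ⟨_, .refl,
        fun x b => ⟨rfl, fun c => a x c b⟩, fun _ _ => ⟨rfl, fun _ => rfl⟩⟩⟩⟩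
  | @tail s s' p q ih =>
    obtain ⟨T, U, t1, u1, t2, t3, u3, t4, ih⟩ := ih
    have f := Reach.off (Relation.ReflTransGen.tail p q)
    obtain ⟨D, d1, d2, d3, d4, d5⟩ := eT (fun z i j => s'.1 z i j - pull ι g z i j)
      (q.1.met.sm.sub γ0.sm) (fun z i j => by rw [q.1.met.sy, γ0.sy]) fun z hz => by
        funext i j; simp [(f z hz).1]
    obtain ⟨D', e1, e2, e3⟩ := eC (fun i z => s'.2 i z - pullC ι U₀ i z) (q.1.cc.sub w0)
      fun z hz i => by simp [(f z hz).2]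
    have up : Up g fun x i j => g x i j + D x i j := fun x ξ => by
      have := d5 (fun z ξ => by
        have := q.2 z ξ
        simp only [sub_mul, Finset.sum_sub_distrib]
        linarith) x ξ
      simp only [add_mul, Finset.sum_add_distrib]
      linarith
    set T' : Fld (k + 1) X := fun x i j => g x i j + D x i j with hT'
    set U' : Fin (k + 1) → X → ℝ := fun i x => U₀ i x + D' i x with hU'
    have t1' : Met T' := met_up up hg (hg.sm.add d1) fun x i j => by simp only [hT', hg.sy x i, d2 x i]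
    have u1' : CC ∞ U' := hU.add e1
    have t4' : ∀ x ∉ C, T' x = g x ∧ ∀ j, U' j x = U₀ j x := fun x hx =>
      ⟨by funext i j; simp [hT', d4 x hx], fun j => by simp [hU', e3 x hx]⟩
    refine ⟨T', U', t1', u1', up, pull_sub ι g D d3, pullC_sub ι U₀ D' e2, t4', fun S₀ => ?_⟩
    obtain ⟨δ, δ0, J⟩ := jet hι t1 t1' u1 u1' (L := Empty) (a := fun _ _ => 0) (a' := fun _ _ => 0)
      (fun m => m.elim) (fun m => m.elim) k1 hK' (fun z hz => mem_interior_iff_mem_nhds.1 (k3 hz))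
      (lt_min η0 (half_pos hε))
    obtain ⟨θ, S₁, a1, a2, a3, a4, a5⟩ := exists_plateau δ0 S₀
    obtain ⟨V, v1, v2, J⟩ := J θ a3 I l u S₁ N.sm fun z _ => N.rg S₁ a2 z
    obtain ⟨S, b1, ih⟩ := ih (S₁ + 1)
    refine ⟨S, by linarith, ?_⟩
    filter_upwards [ih, J, N.sm, N.conc S₁ _ (v1.union c1.isClosed.isOpen_compl) fun x hx =>
      or_iff_not_imp_right.2 fun w => by
        have w := c2 (not_not.1 w)
        obtain ⟨z, rfl⟩ := hA ⟨w.1, hx⟩
        exact v2 z (interior_subset (o2 ▸ w.2))] with i ih J hu hc v Y hv hY hvU hval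
    obtain ⟨s₁, r1, r2, r3⟩ := ih v Y hv hY hvU hval
    have ok := r1.ok (met_g hg hu) hv
    have sθ : Smooth fun x => θ (u i x) := a3.sm.compM hu
    let s₂ : St (k + 1) X := (fun x a b => s₁.1 x a b + θ (u i x) * (T' x a b - T x a b),
      fun j x => s₁.2 j x + θ (u i x) * (U' j x - U j x))
    have z0 : ∀ x, x ∉ C ∨ S₁ < |u i x| → s₂.1 x = s₁.1 x ∧ ∀ j, s₂.2 j x = s₁.2 j x := by
      rintro x (w | w)
      · exact ⟨by funext a b; simp [s₂, (t4 x w).1, (t4' x w).1],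
          fun j => by simp [s₂, (t4 x w).2, (t4' x w).2]⟩
      · exact ⟨by funext a b; simp [s₂, a5 _ w.le], fun j => by simp [s₂, a5 _ w.le]⟩
    have z1 : ∀ σ x, |u i x| ≤ S₁ + 1 → lT (fun _ => σ) s₁.1 s₂.1 x =
        gb (lT (fun y => σ * θ (u i y)) T T') 1 (u i) x ∧ (x ∈ W → ∀ j,
          lC (fun _ => σ) s₁.2 s₂.2 j x = lC (fun y => σ * θ (u i y)) U U' j x) := fun σ x w =>
      ⟨by funext a b; simp only [lT, s₂, (r2 x w).1, gb]; ring,
        fun w' j => by simp only [lC, s₂, (r2 x w).2 w']; ring⟩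
    have z2 : Up (gb g 1 (u i)) s₂.1 := fun x ξ => by
      rcases le_or_gt |u i x| S₁ with w | w
      · have := (z1 1 x (by linarith)).1
        rw [lT_one] at this
        have m := a3.mem (u i x)
        have p1 := mul_le_mul_of_nonneg_left (t2 x ξ) (sub_nonneg.2 m.2)
        have p2 := mul_le_mul_of_nonneg_left (up x ξ) m.1
        simp only [this, gb, lT, one_mul, add_mul, Finset.sum_add_distrib, mul_assoc,
          ← Finset.mul_sum] at p1 p2 ⊢
        linarith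
      · rw [(z0 x (.inr w)).1]
        exact r1.up x ξ
    refine ⟨s₂, .tail r1 ⟨⟨met_up z2 (met_g hg hu) (ok.1.sm.add (SmT.smul sθ (t1'.sm.sub t1.sm)))
      fun x a b => by simp only [s₂, ok.1.sy x a, t1.sy x a, t1'.sy x a],
      ok.2.add (CC.smul sθ (u1'.sub u1)), fun x hx => z0 x (or_iff_not_imp_left.2 fun c =>
        not_le.1 fun w => hx (hY x (c2 (not_not.1 c)).1 (by linarith))), fun σ hσ x hx => ?_⟩, z2⟩, fun x w => ?_, fun x w => ?_⟩
    · by_cases w : x ∉ C ∨ S₁ < |u i x|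
      · have ev : ∀ᶠ y in 𝓝 x, y ∉ C ∨ S₁ < |u i y| := (c1.isClosed.isOpen_compl.union
          (isOpen_lt continuous_const hu.cont.abs)).mem_nhds w
        rw [Rv_of_ev (g' := s₁.1) (v' := s₁.2) (ev.mono fun y p => by
          funext a b; rw [lT, (z0 y p).1]; ring) fun j => ev.mono fun y p => by
            rw [lC, (z0 y p).2]; ring]
        exact r1.val hval x hx
      rw [not_or, not_not, not_lt] at w
      have ev : ∀ᶠ y in 𝓝 x, y ∈ W ∧ |u i y| < S₁ + 1 := (hW.inter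
        (isOpen_lt hu.cont.abs continuous_const)).mem_nhds ⟨(c2 w.1).1, by
          show |u i x| < _; linarith⟩
      rw [Rv_of_ev (ev.mono fun y p => (z1 σ y p.2.le).1) fun j => ev.mono fun y p =>
        (z1 σ y p.2.le).2 p.1 j]
      obtain ⟨z, hz, σ', hσ', -, cl⟩ := J σ hσ x ((hc x w.2).resolve_right (not_not.2 w.1)) w.2
      have p1 := abs_le.1 (hη x (.inl w.1) (ι z) (.inr ⟨z, hz, rfl⟩) (cl.d.trans (min_le_left _ _)))
      have p2 := abs_le.1 (cl.R.trans (min_le_right _ _))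
      rw [t3, u3, pull_sub ι g D d3, pullC_sub ι U₀ D' e2] at p2
      have p3 : P (ι z) ≤ Rv (lT (fun _ => σ') s.1 s'.1) (lC (fun _ => σ') s.2 s'.2) z := by
        by_cases y : z ∈ K
        · exact q.1.val σ' hσ' z y
        · rw [q.1.val_off hK.isClosed y, Reach.val_off p hK.isClosed y]
          exact h0 z hz
      linarith [p1.2, p2.1]
    · have := z1 1 x (by linarith)
      rw [lT_one, lC_one] at this
      exact ⟨this.1.trans (by funext a b; simp [gb, lT, a4 _ w]),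
        fun y j => (this.2 y j).trans (by simp [lC, a4 _ w])⟩
    · have := z0 x (w.imp_right fun w => by linarith)
      exact ⟨this.1.trans (r3 x w).1, fun j => (this.2 j).trans ((r3 x w).2 j)⟩

end Vale.Agent.P210J
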