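import Vale.Agent.P210J.TransE
import Vale.Agent.P210E.Zs
import Vale.Agent.P210F.Jet
import Vale.Agent.P210Z.Fin

/-!
# P210J: the result on the hypersurface is transplanted to the neck
-/

open Filter Topology Set
open scoped ContDiff
open Vale.Agent.P366M Vale.Agent.P366M.Gr Vale.Agent.P366M.Y.C Vale.Agent.P366M.An
open Vale.Agent.P210G Vale.Agent.P210U
open Vale.Agent.P366D (pull Sub)
open Vale.Agent.P210L (Vf)
open Vale.Agent.P210E (nk Da Pl Hom K4)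
open Fin (last)

noncomputable section

namespace Vale.Agent.P210J

/-- properties which hold along the neck near every point of the limit hold on the slabs -/
theorem ev_neck {I : Type} {k : ℕ} {X : Type} [Mf0 (k + 1) X] {𝒰 : Ultrafilter I}
    {g : Fld (k + 1) X} {f h : X → ℝ} {u : I → X → ℝ} {c ε : I → ℝ} {O K : Set X} {Λ S : ℝ}
    (F : Vf 𝒰 g f h u c ε O K Λ) {P : I → X → Prop}
    (H : ∀ x ∈ La 𝒰 u, ∀ᶠ p in nk (𝒰 : Filter I) u S x, P p.1 p.2) :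
    ∀ᶠ i in (𝒰 : Filter I), ∀ x, |u i x| ≤ S → P i x := by
  refine ((P366P.ev_cpt (P := fun i x => |u i x| ≤ S → P i x) F.cpt fun x _ => ?_).and
    (F.cf S)).mono fun i a x q => a.1 x (a.2 x q) q
  by_cases w : x ∈ La 𝒰 u
  · exact eventually_inf_principal.1 (H x w)
  obtain ⟨t, t1, t2, t3⟩ := exists_mem_nhds_isClosed_subset
    ((isClosed_La 𝒰 u).isOpen_compl.mem_nhds w)
  exact ((F.conc S t2.isOpen_compl fun y p q => t3 q p).prod_mk t1).mono fun p q r =>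
    (q.1 _ r q.2).elim

theorem nk_snd {I X : Type} [TopologicalSpace X] (l : Filter I) (u : I → X → ℝ) (S : ℝ) (x : X) :
    Tendsto Prod.snd (nk l u S x) (𝓝 x) := tendsto_snd.mono_left inf_le_left

variable {k : ℕ} {X : Type} [Mf0 (k + 2) X] {d : Da k X}

theorem cc_Om (h : d.Ok) {L : X → ℝ} (hL : Smooth L) : CC ∞ (d.Om L) :=
  ((CC.neg h.nck.vf.smf.cc_pd).add (CC.neg hL.cc_pd)).add (CC.smul cd_const (Smooth.cc_pd
    (CD.add (CD.mul cd_const (CD.log h.H₁.smW fun x => by linarith [h.H₁.W1 x]))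
      (CD.mul cd_const (CD.log h.H₂.smW fun x => by linarith [h.H₂.W1 x])))))

variable {Z : Type} [Mf0 (k + 1) Z] {ι : Z → X} {L : X → ℝ} {C c : ℝ} {γ : Fld (k + 1) Z}
  {β : Fin (k + 1) → Z → ℝ} {l' : Z → ℝ} {E : Fin k → Z → ℝ} (ok : d.Ok) (rg : d.Reg ι)
include ok rg

theorem in_O (z : Z) : ι z ∈ d.O₀ := ok.nck.vf.sub (ok.nck.vf.la_sub
  (show ι z ∈ d.A \ d.S from rg.sub.rng ▸ mem_range_self z).1)

theorem in_reg {x : X} (p : x ∈ d.A) (q : d.w₁ x ≤ 11 / 8) : x ∈ range ι :=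
  rg.sub.rng ▸ ⟨p, fun r => by linarith [ok.H₁.inn x r]⟩

/-- the estimates on the plateau -/
theorem plat (c0 : 0 < c) (c1 : c ≤ 1 / 64) (zo : P210E.Zo (pull ι d.g) (pullC ι (d.Om L))
    (fun z => d.l (ι z)) (fun z => d.G (last k) (ι z)) (fun j z => d.D j (ι z))
    (fun z => d.w₁ (ι z)) (d.a - 3 * d.η) C c d.ε d.m γ β l' E) {T : Fld (k + 2) X}
    {U : Fin (k + 2) → X → ℝ} {l₂ : X → ℝ} {E₂ : Fin k → X → ℝ} (t1 : Met T) (t2 : CC ∞ U)
    (s1 : Smooth l₂) (s2 : ∀ j, Smooth (E₂ j)) (t3 : pull ι T = γ) (t4 : pullC ι U = β)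
    (i1 : (fun z => l₂ (ι z)) = l') (i2 : ∀ j, (fun z => E₂ j (ι z)) = E j) {B S : ℝ} (S0 : 0 < S)
    (hB : ∀ x ∈ d.K₀, d.l x ≤ B ∧ l₂ x ≤ B ∧ ∀ j, |E₂ j x| ≤ B) :
    ∀ᶠ i in (hyperfilter ℕ : Filter ℕ), ∀ x, |d.u i x| ≤ S → d.w₁ x ≤ 11 / 8 → x ∈ d.K₀ →
      Pl d.l d.G (d.a - 4 * d.η) (C + 1) (c / 2) d.ε B (gb T 1 (d.u i)) U l₂ E₂ x := by
  refine ev_neck ok.nck.vf fun x hx => ?_
  have ts := nk_snd (hyperfilter ℕ : Filter ℕ) d.u S x
  by_cases w : d.w₁ x ≤ 11 / 8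
  swap
  · exact (ts.eventually (continuousAt_const.eventually_lt ok.H₁.smw.cont.continuousAt
      (not_le.1 w))).mono fun p q r => (q.not_ge r).elim
  obtain ⟨z, rfl⟩ := in_reg ok rg hx w
  obtain ⟨j1, j2⟩ := P210F.jet _ _ _ X Z ι _ d.u _ z T rg.sub ok.nck.vf.smu (rg.rg _ S0 z) t1
  have tl := (s1.cont.tendsto (ι z)).comp ts
  have j1 := j1 U t2
  have j3 := j2 _ s1
  have j4 := fun j => tl.mul (j2 _ (s2 j))
  simp only [t3, t4, i1, i2, congrFun i1 z] at j1 j3 j4 tl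
  obtain ⟨z1, z2, z3, z4⟩ := zo.bd z w
  have an := (ok.nck.ann _ (in_O ok rg z)).2
  rw [nsq, Fin.sum_univ_castSucc, add_comm] at an
  have hm := P210Z.hom2 k X (c / 2) (d.G (last k)) (fun j => d.G j.castSucc) E₂ (ι z)
    (ok.bd.smG _).cont (fun j => (ok.bd.smG _).cont) (fun j => (s2 j).cont) (by
      simp only [fun j => congrFun (i2 j) z]
      exact P210Z.hom1 k c _ _ d.b₀ _ c0 c1 an.1 an.2 ok.b0 (zo.pos z w) (zo.par z w))
  have ε0 := ok.ε0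
  filter_upwards [tl.eventually (lt_mem_nhds (zo.l0 z)), ((tl.pow 2).mul j1).eventually
    (lt_mem_nhds (show d.a - 4 * d.η < _ by linarith [ok.η0])), (tl.sub
      (((ok.bd.ok.sml.cont.tendsto (ι z)).comp ts).const_mul (C + 1))).eventually
      (gt_mem_nhds (show _ < (0 : ℝ) by linarith [ok.bd.ok.l0 (ι z)])),
    j3.eventually (gt_mem_nhds (show _ < (C + 1) * d.ε by linarith)), eventually_all.2 fun j =>
      (j4 j).eventually (gt_mem_nhds (show _ < (C + 1) * d.ε by linarith [z4 j])),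
    ts.eventually hm] with p q1 q2 q3 q4 q5 q6 _ r
  exact ⟨q1, q2.le, (sub_neg.1 q3).le, q4.le, fun j => (q5 j).le, q6, hB _ r⟩

omit ok rg

/-- **ZB** -/
theorem zb : P210E.ZB := by
  intro k X _ d Z _ ι L C c γ β l' E ok rg hL zh c0 c1 zo
  have F := ok.nck.vf
  have hι := rg.sub
  have cw := ok.H₁.smw.cont
  have ci := cw.comp hι.emb.continuous
  have sl := ok.bd.ok.sml
  have hW : IsOpen (d.O₀ ∩ {x | d.w₁ x < 11 / 8}) := F.opn.inter (isOpen_lt cw continuous_const)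
  have hK : IsCompact {z | d.w₁ (ι z) ≤ 5 / 4} := zh.cpt.of_isClosed_subset
    (isClosed_le ci continuous_const) fun z q => show d.w₁ (ι z) ≤ _ from le_trans q (by norm_num)
  have hKW : ∀ z ∈ {z | d.w₁ (ι z) ≤ 5 / 4}, ι z ∈ d.O₀ ∩ {x | d.w₁ x < 11 / 8} := fun z q =>
    ⟨in_O ok rg z, show d.w₁ (ι z) < _ from lt_of_le_of_lt q (by norm_num)⟩
  obtain ⟨C₁, c1', c2, H⟩ := trans (A := d.A) (P := fun x => (d.a - 3 * d.η) / d.l x ^ 2)
    ⟨hι, .of_forall F.smu, rg.rg, fun S N => F.conc S⟩ F.met (cc_Om ok hL)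
    (continuous_const.div (sl.cont.pow 2) fun x => (pow_pos (ok.bd.ok.l0 x) 2).ne') hK zh.cpt
    (fun z q => mem_interior_iff_mem_nhds.2 (mem_of_superset ((isOpen_lt ci
      continuous_const).mem_nhds (hKW z q).2) fun y p => show d.w₁ (ι y) ≤ _ from le_of_lt p))
    hW hKW (fun x q => in_reg ok rg q.2 (le_of_lt q.1.2)) (fun z q => le_trans (by
      have p2 := zh.W1 z
      exact le_add_of_le_of_nonneg (le_add_of_le_of_nonneg (div_le_div_of_nonneg_right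
        (by linarith [ok.η0]) (sq_nonneg _)) (mul_nonneg ok.Γ0 (div_nonneg (by linarith)
          (by linarith)))) (by positivity)) (zh.bd z q).1) ok.δ0
  obtain ⟨T, U, t1, t2, -, t3, t4, -, H⟩ := H (γ, β) (Reach.ofE (s := (_, _)) zo.rch)
  obtain ⟨C₂, e1, e2, -, -, eF⟩ := P210V.ext hι hK hW hKW
  obtain ⟨a, a1, a2, a3, -⟩ := eF (fun z => l' z - d.l (ι z) / d.m)
    (CD.sub zo.sml (CD.div_const zh.ok.sml _)) fun z q => by rw [(zo.off z (not_le.1 q)).1, sub_self]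
  choose b b1 b2 b3 _ using fun j => eF (fun z => E j z - d.m * d.D j (ι z))
    (CD.sub (zo.smE j) (CD.mul cd_const (zh.smD j))) fun z q => by
      rw [(zo.off z (not_le.1 q)).2, sub_self]
  have s1 : Smooth fun x => d.l x / d.m + a x := CD.add (CD.div_const sl _) a1
  have s2 : ∀ j, Smooth fun x => d.m * d.D j x + b j x := fun j =>
    CD.add (CD.mul cd_const (CD.sub (ok.bd.smG _) cd_const)) (b1 j)
  have ou : ∀ {C' : Set X}, IsCompact C' → C' ⊆ d.O₀ ∩ {x | d.w₁ x < 11 / 8} → ∀ x,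
      11 / 8 ≤ d.w₁ x → ∀ᶠ y in 𝓝 x, y ∉ C' := fun p q x r =>
    p.isClosed.isOpen_compl.mem_nhds fun w => r.not_gt (q w).2
  refine ⟨_, _, s1, s2, fun x q => ⟨(ou e1 e2 x q).mono fun y p => by simp [a3 y p],
    fun j => (ou e1 e2 x q).mono fun y p => by simp [b3 j y p]⟩, fun B hB S₀ => ?_⟩
  obtain ⟨S, hS, H⟩ := H (|S₀| + 1)
  refine ⟨S, by linarith [le_abs_self S₀], ?_⟩
  filter_upwards [H, plat ok rg c0 c1 zo t1 t2 s1 s2 t3 t4 (funext fun z => by simp [a2])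
    (fun j => funext fun z => by simp [b2]) (show 0 < |S₀| + 1 by positivity) hB, F.cf S₀]
    with i H key cf v hv hvO hval
  obtain ⟨s, r1, r2, r3⟩ := H v (K4 d.G d.O) hv (fun x p _ => ⟨(ok.nck.ann x p.1).1,
    show nsq _ _ ≤ _ by linarith [(ok.nck.ann x p.1).2.2]⟩) (fun x p => hvO x p.2) hval
  refine ⟨s, r1.toE (met_g F.met (F.smu i)) hv, fun x p => ⟨fun w => ?_, fun w =>
    ⟨(ou c1' c2 x w).mono fun y q => (r3 y (.inl q)).1,
      fun j => (ou c1' c2 x w).mono fun y q => (r3 y (.inl q)).2 j⟩⟩⟩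
  have lt : |d.u i x| < |S₀| + 1 := by linarith [le_abs_self S₀]
  have ev : ∀ᶠ y in 𝓝 x, y ∈ d.O₀ ∩ {x | d.w₁ x < 11 / 8} ∧ |d.u i y| < |S₀| + 1 :=
    (hW.inter (isOpen_lt (F.smu i).cont.abs continuous_const)).mem_nhds ⟨⟨F.sub (cf x p), w⟩, lt⟩
  have e := ev.mono fun y q => (r2 y q.2.le).1
  have q := key x lt.le w.le (cf x p)
  refine ⟨q.l0, ?_, q.le, (gn_of_ev e .rfl).trans_le q.gl, fun j => ?_, q.hom, q.bd⟩
  · rw [Rv_of_ev e fun j => ev.mono fun y q => (r2 y q.2.le).2 q.1 j]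
    exact q.rv
  · rw [gn_of_ev e .rfl]
    exact q.gE j

end Vale.Agent.P210J
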