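import Vale.Agent.P210G.Defs
import Vale.Agent.P366P.Lim

/-!
# P210J: states in coordinates; slowly varying states on a product with a line
-/

open Filter Topology Set
open scoped ContDiff
open Vale.Agent.P366.Stmt Vale.Agent.P366Z
open Vale.Agent.P366M (jac)
open Vale.Agent.P366D (pb snc ini)
open Vale.Agent.P366P
open Fin (last)

noncomputable section

namespace Vale.Agent.P210J

variable {n k a m : ℕ} {I J : Type} {l : Filter I} {o : I} {x : E n} {G G' : Field n}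
  {w w' : Fin n → E n → ℝ}

theorem cv_reidx {l' : Filter J} {o' : J} {π : J → I} (hπ : Tendsto π l' l) (ho : pure o' ≤ l')
    (e : π o' = o) : ∀ {m : ℕ} {U : I → E n → ℝ}, Cv l o m U x → Cv l' o' m (fun k => U (π k)) x := by
  have t : Tendsto (fun p : J × E n => (π p.1, p.2)) (l' ×ˢ 𝓝 x) (l ×ˢ 𝓝 x) :=
    (hπ.comp tendsto_fst).prodMk tendsto_snd
  have h0 : ∀ {U : I → E n → ℝ}, B0 l o U x → B0 l' o' (fun k => U (π k)) x := fun h =>
    ⟨ho, t.eventually h.sm, by rw [e]; exact h.cv.comp t⟩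
  intro m
  induction m with
  | zero => exact h0
  | succ m ih => exact fun h => ⟨h0 h.1, fun j => ih (h.2 j)⟩

theorem cv_par {c : I → ℝ} (ho : pure o ≤ l) (hc : Tendsto c l (𝓝 (c o))) (y : E n) :
    ∀ m : ℕ, Cv l o m (fun i _ => c i) y
  | 0 => ⟨ho, .of_forall fun _ => contDiffAt_const, hc.comp tendsto_fst⟩
  | m + 1 => ⟨cv_par ho hc y 0, fun j =>
      (cv_const ho m 0).congr (.of_forall fun p => pd_const _ j p.2)⟩

theorem pd_last {θ : ℝ → ℝ} (hθ : ContDiff ℝ ∞ θ) (j : Fin (k + 1)) (y : E (k + 1)) :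
    pd j (fun z => θ (z (last k))) y = (if j = last k then 1 else 0) * deriv θ (y (last k)) := by
  rw [pd_comp (hθ.differentiable (by simp) _).hasDerivAt (by fun_prop), pd_coord, mul_comm]

/-- functions of the last coordinate -/
theorem cv_last (ho : pure o ≤ l) {y : E (k + 1)} : ∀ {m : ℕ} {θ : I → ℝ → ℝ},
    (∀ i, ContDiff ℝ ∞ (θ i)) → (∀ j ≤ m, Tendsto (fun p : I × ℝ => deriv^[j] (θ p.1) p.2)
      (l ×ˢ 𝓝 (y (last k))) (𝓝 (deriv^[j] (θ o) (y (last k))))) →
    Cv l o m (fun i z => θ i (z (last k))) y := by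
  have t : Tendsto (fun p : I × E (k + 1) => (p.1, p.2 (last k))) (l ×ˢ 𝓝 y)
      (l ×ˢ 𝓝 (y (last k))) := tendsto_fst.prodMk
    ((show Continuous fun z : E (k + 1) => z (last k) by fun_prop).continuousAt.tendsto.comp
      tendsto_snd)
  have h0 : ∀ {θ : I → ℝ → ℝ}, (∀ i, ContDiff ℝ ∞ (θ i)) → Tendsto (fun p : I × ℝ => θ p.1 p.2)
      (l ×ˢ 𝓝 (y (last k))) (𝓝 (θ o (y (last k)))) → B0 l o (fun i z => θ i (z (last k))) y :=
    fun hs h => ⟨ho, .of_forall fun p => ((hs p.1).comp (by fun_prop)).contDiffAt, h.comp t⟩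
  intro m
  induction m with
  | zero => exact fun hs h => h0 hs (h 0 le_rfl)
  | succ m ih =>
    exact fun hs h => ⟨h0 hs (h 0 m.succ.zero_le), fun j => ((ih (fun i => (hs i).deriv')
      fun j hj => h (j + 1) (by omega)).const_mul _).congr (.of_forall fun p => pd_last (hs _) j _)⟩

/-- the vector field dual to a 1-form -/
def shE (G : Field n) (w : Fin n → E n → ℝ) (i : Fin n) (y : E n) : ℝ := ∑ j, up G i j y * w j y

/-- the scalar curvature of a state -/
def RvE (G : Field n) (w : Fin n → E n → ℝ) (y : E n) : ℝ :=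
  scal G y + 2 * dv G (shE G w) y - ∑ i, w i y * shE G w i y

/-- the pull-back of a 1-form -/
def pc (φ : E k → E n) (w : Fin n → E n → ℝ) (i : Fin k) (y : E k) : ℝ :=
  ∑ b, jac φ y b i * w b (φ y)

theorem RvE_congr (h : G =ᶠ[𝓝 x] G') (e : ∀ i, w i =ᶠ[𝓝 x] w' i) : RvE G w x = RvE G' w' x := by
  have h1 : ∀ i, shE G w i =ᶠ[𝓝 x] shE G' w' i := fun i =>
    (h.and (eventually_all.2 e)).mono fun y q => by simp only [shE, up_of_eq q.1, q.2]
  simp only [RvE, scal_of_ev h, dv_of_ev h h1, fun i => (h1 i).self_of_nhds,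
    fun i => (e i).self_of_nhds]

theorem cv_RvE {G : I → Field n} {w : I → Fin n → E n → ℝ} (h : CvT l o (m + 2) G x)
    (h0 : 0 < (mat (G o) x).det) (hw : ∀ j, Cv l o (m + 1) (fun i => w i j) x) :
    Cv l o m (fun i => RvE (G i) (w i)) x := by
  have h1 : ∀ j, Cv l o (m + 1) (fun i => shE (G i) (w i) j) x := fun j =>
    cv_sum h.1 _ fun b _ => (h.pred.up h0 j b).mul (hw b)
  exact ((h.scal h0).add ((h.pred.dv h0 h1).const_mul 2)).sub
    (cv_sum h.1 _ fun j _ => (hw j).pred.mul (h1 j).pred)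

theorem cv_pc {Ψ : I → E n → E a} (h : CvM l o (m + 1) Ψ x) {w : Fin a → E a → ℝ}
    (hw : ∀ b, ContDiff ℝ ∞ (w b)) (j : Fin n) : Cv l o m (fun i => pc (Ψ i) w j) x :=
  cv_sum h.1 _ fun b _ => (h.jac b j).mul
    ((h.mono m.le_succ).comp (.of_forall fun _ => (hw b).contDiffAt))

theorem RvE_law {τ : E n → E n} (h : Ctx τ G G' x) (hw : ∀ i, DifferentiableAt ℝ (w i) (τ x))
    (e : PC τ w w' x) : RvE G' w' x = RvE G w (τ x) := by
  have h1 : PV τ (shE G w) (shE G' w') x := by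
    filter_upwards [h.ev, e] with z p q i using p.raise q i
  rw [RvE, RvE, h.scal_law, h.dv_law (X := shE G w) (fun i => DifferentiableAt.fun_sum fun j _ =>
    ((h.m.sm_up i j).diff _).fun_mul (hw j)) h1,
    Ctx.pair h.c e.self_of_nhds h1.self_of_nhds]

theorem pc_cs (w : Fin k → E k → ℝ) (i : Fin k) :
    pc ini w i.castSucc = fun y => w i (ini y) := by
  funext y; simp [pc, jac_ini_cs]

theorem pc_la (w : Fin k → E k → ℝ) : pc ini w (last k) = fun _ => 0 := by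
  funext y; simp [pc, jac_ini_la]

theorem RvE_prd {γ : Field k} (hγ : Met γ) (w : Fin k → E k → ℝ) (y : E (k + 1)) :
    RvE (prd γ) (pc ini w) y = RvE γ w (ini y) := by
  have h1 : ∀ i : Fin k, shE (prd γ) (pc ini w) i.castSucc = fun y => shE γ w i (ini y) :=
    fun i => funext fun y => by simp [shE, Fin.sum_univ_castSucc, up_cc hγ, pc_cs, pc_la]
  have h2 : shE (prd γ) (pc ini w) (last k) = fun _ => 0 :=
    funext fun y => by simp [shE, up_l1 hγ, pc_la]
  have h3 := fun i => pd_cs (fun y => dens γ y * shE γ w i y) i y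
  simp [RvE, scal_prd hγ, dv, Fin.sum_univ_castSucc, h1, h2, h3, dens_prd, pd_const, pc_cs]

/-- the interpolated metric on the product -/
def mT (θ : ℝ → ℝ) (Φ : E (k + 1) → E n) (G G' : Field n) : P366.Stmt.Field (k + 1) := fun y i j =>
  (1 - θ (y (last k))) * pb Φ G y i j + θ (y (last k)) * pb Φ G' y i j + ds2 k i j

/-- the interpolated 1-form on the product -/
def mC (θ : ℝ → ℝ) (Φ : E (k + 1) → E n) (w w' : Fin n → E n → ℝ) (i : Fin (k + 1))
    (y : E (k + 1)) : ℝ := (1 - θ (y (last k))) * pc Φ w i y + θ (y (last k)) * pc Φ w' i y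

theorem mT_at (θ : ℝ → ℝ) (γ γ' : Field k) (y : E (k + 1)) : mT θ ini γ γ' y =
    prd (fun z i j => (1 - θ (y (last k))) * γ z i j + θ (y (last k)) * γ' z i j) y := by
  funext i j
  simp only [mT, prd, pb, Finset.mul_sum, ← Finset.sum_add_distrib, add_left_inj]
  exact Finset.sum_congr rfl fun _ _ => Finset.sum_congr rfl fun _ _ => by ring

theorem mC_const (s : ℝ) (w w' : Fin k → E k → ℝ) : mC (fun _ => s) ini w w' =
    pc ini fun i z => (1 - s) * w i z + s * w' i z := by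
  funext i y
  simp only [mC, pc, Finset.mul_sum, ← Finset.sum_add_distrib]
  exact Finset.sum_congr rfl fun _ _ => by ring

theorem posDef_comb {A B : Matrix (Fin n) (Fin n) ℝ} (hA : A.PosDef) (hB : B.PosDef) {s : ℝ}
    (hs : s ∈ Icc (0 : ℝ) 1) : ((1 - s) • A + s • B).PosDef := by
  rcases hs.1.eq_or_lt with q | q
  · simpa [← q] using hA
  · exact Matrix.PosDef.posSemidef_add (hA.posSemidef.smul (sub_nonneg.2 hs.2)) (hB.smul q)

theorem met_comb (hG : Met G) (hG' : Met G') {s : ℝ} (hs : s ∈ Icc (0 : ℝ) 1) :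
    Met fun z i j => (1 - s) * G z i j + s * G' z i j :=
  ⟨fun i j => (contDiff_const.mul (hG.sm i j)).add (contDiff_const.mul (hG'.sm i j)),
    fun z i j => by rw [hG.sy, hG'.sy], fun z => posDef_comb (hG.pos z) (hG'.pos z) hs⟩

theorem pos_prd {γ : Field k} (hγ : Met γ) (y : E (k + 1)) : (mat (prd γ) y).PosDef := by
  refine Matrix.PosDef.of_dotProduct_mulVec_pos ?_ fun ξ hξ => ?_
  · ext i j
    change prd γ y j i = prd γ y i j
    rw [prd, prd, P366D.pb_sy (hγ.sy _), ds2, ds2, mul_comm]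
  · have e : star ξ ⬝ᵥ (mat (prd γ) y).mulVec ξ = star (fun i => ξ (Fin.castSucc i)) ⬝ᵥ
        (mat γ (ini y)).mulVec (fun i => ξ i.castSucc) + ξ (last k) ^ 2 := by
      simp [dotProduct, Matrix.mulVec, Fin.sum_univ_castSucc, mat, congrFun (prd_cc _ _) y,
        congrFun (prd_l1 _) y, congrFun (prd_l2 _) y, sq]
    rw [e]
    by_cases h : (fun i => ξ (Fin.castSucc i)) = 0
    · rw [h]
      simp only [star_zero, zero_dotProduct, zero_add]
      refine sq_pos_of_ne_zero fun q => hξ (funext fun i => ?_)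
      exact Fin.lastCases q (fun j => congrFun h j) i
    · exact add_pos_of_pos_of_nonneg ((hγ.pos _).dotProduct_mulVec_pos h) (sq_nonneg _)

theorem sm_last {θ : ℝ → ℝ} (hθ : ContDiff ℝ ∞ θ) :
    ContDiff ℝ ∞ fun y : E (k + 1) => θ (y (last k)) := hθ.comp (by fun_prop)

theorem met_mT {θ : ℝ → ℝ} (hθ : ContDiff ℝ ∞ θ) (h : ∀ r, θ r ∈ Icc (0 : ℝ) 1) {γ γ' : Field k}
    (hγ : Met γ) (hγ' : Met γ') : Met (mT θ ini γ γ') := by
  have s : ∀ {γ : Field k}, Met γ → ∀ i j, ContDiff ℝ ∞ fun y => pb ini γ y i j := fun h i j =>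
    contDiff_iff_contDiffAt.2 fun _ =>
      P366D.cd_pb sm_ini.contDiffAt (fun a b => (h.sm a b).contDiffAt) i j
  refine ⟨fun i j => (((contDiff_const.sub (sm_last hθ)).mul (s hγ i j)).add
    ((sm_last hθ).mul (s hγ' i j))).add contDiff_const, fun y i j => ?_, fun y => ?_⟩
  · rw [mT, mT, P366D.pb_sy (hγ.sy _), P366D.pb_sy (hγ'.sy _) i j, ds2, ds2, mul_comm (ite _ _ _)]
  · rw [mat, mT_at]
    exact pos_prd (met_comb hγ hγ' (h _)) y

theorem sm_mC {θ : ℝ → ℝ} (hθ : ContDiff ℝ ∞ θ) {w w' : Fin k → E k → ℝ}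
    (hw : ∀ i, ContDiff ℝ ∞ (w i)) (hw' : ∀ i, ContDiff ℝ ∞ (w' i)) (i : Fin (k + 1)) :
    ContDiff ℝ ∞ (mC θ ini w w' i) := by
  have s : ∀ {w : Fin k → E k → ℝ}, (∀ i, ContDiff ℝ ∞ (w i)) → ContDiff ℝ ∞ (pc ini w i) :=
    fun h => ContDiff.sum fun b _ => (contDiff_iff_contDiffAt.2 fun _ =>
      P366M.cd_jac sm_ini.contDiffAt b i).mul ((h b).comp sm_ini)
  exact ((contDiff_const.sub (sm_last hθ)).mul (s hw)).add ((sm_last hθ).mul (s hw'))

theorem cv_mT {θ : I → ℝ → ℝ} {y : E (k + 1)} {Ψ : I → E (k + 1) → E n}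
    (h : CvM l o (m + 1) Ψ y) (hθ : Cv l o m (fun i z => θ i (z (last k))) y)
    (hG : ∀ i j, Smooth fun z => G z i j) (hG' : ∀ i j, Smooth fun z => G' z i j) :
    CvT l o m (fun i => mT (θ i) (Ψ i) G G') y :=
  ⟨h.1, fun b c => ((((cv_const h.1 m 1).sub hθ).mul ((h.pb fun b c => .of_forall fun _ =>
    (hG b c).contDiffAt).2 b c)).add (hθ.mul ((h.pb fun b c => .of_forall fun _ =>
      (hG' b c).contDiffAt).2 b c))).add (cv_const h.1 m _)⟩

theorem cv_mC {θ : I → ℝ → ℝ} {y : E (k + 1)} {Ψ : I → E (k + 1) → E n}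
    (h : CvM l o (m + 1) Ψ y) (hθ : Cv l o m (fun i z => θ i (z (last k))) y)
    (hw : ∀ i, ContDiff ℝ ∞ (w i)) (hw' : ∀ i, ContDiff ℝ ∞ (w' i)) (j : Fin (k + 1)) :
    Cv l o m (fun i => mC (θ i) (Ψ i) w w' j) y :=
  (((cv_const h.1 m 1).sub hθ).mul (cv_pc h hw j)).add (hθ.mul (cv_pc h hw' j))

/-! ### changes of coordinates of the first factor and translations -/

/-- the product of a map with a translation -/
def th (τ : E k → E k) (s : ℝ) (y : E (k + 1)) : E (k + 1) := snc (τ (ini y)) (y (last k) + s)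

theorem pc_comp {j : ℕ} {φ : E k → E n} {σ : E j → E k} {z : E j} (hφ : DifferentiableAt ℝ φ (σ z))
    (hσ : DifferentiableAt ℝ σ z) (i : Fin j) :
    pc (fun y => φ (σ y)) w i z = pc σ (pc φ w) i z := by
  simp only [pc, P366M.jac_comp hφ hσ, Matrix.mul_apply, Finset.sum_mul, Finset.mul_sum]
  rw [Finset.sum_comm]
  exact Finset.sum_congr rfl fun _ _ => Finset.sum_congr rfl fun _ _ => by ring

theorem law_th {τ : E k → E k} {s : ℝ} {y : E (k + 1)} {θ : ℝ → ℝ} (hθ : ContDiff ℝ ∞ θ)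
    (h01 : ∀ r, θ r ∈ Icc (0 : ℝ) 1) {γ₀ γ₁ γ₀' γ₁' : Field k} {v₀ v₁ v₀' v₁' : Fin k → E k → ℝ}
    (m₀ : Met γ₀) (m₁ : Met γ₁) (m₀' : Met γ₀') (m₁' : Met γ₁') (s₀ : ∀ i, ContDiff ℝ ∞ (v₀ i))
    (s₁ : ∀ i, ContDiff ℝ ∞ (v₁ i)) (h : ∀ᶠ z in 𝓝 (ini y), ContDiffAt ℝ ∞ τ z ∧
      γ₀' z = pb τ γ₀ z ∧ γ₁' z = pb τ γ₁ z ∧ ∀ i, v₀' i z = pc τ v₀ i z ∧ v₁' i z = pc τ v₁ i z) :
    RvE (mT (fun r => θ (r + s)) ini γ₀' γ₁') (mC (fun r => θ (r + s)) ini v₀' v₁') y =
      RvE (mT θ ini γ₀ γ₁) (mC θ ini v₀ v₁) (th τ s y) := by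
  have di : ∀ z : E (k + 1), DifferentiableAt ℝ ini z := sm_ini.differentiable (by simp)
  have h1 := sm_ini.continuous.continuousAt.eventually h
  have e0 : ∀ z, ini (th τ s z) = τ (ini z) := fun z => ini_snc _ _
  have e1 : ∀ z, th τ s z (last k) = z (last k) + s := fun z => snc_last _ _
  have sm : ∀ z, ContDiffAt ℝ ∞ τ (ini z) → ContDiffAt ℝ ∞ (th τ s) z := fun z q =>
    P366M.Gr.sm_snc.contDiffAt.comp z ((q.comp z sm_ini.contDiffAt).prodMk (by fun_prop))
  have e2 : ∀ z i, jac (th τ s) z (last k) i = if i = last k then 1 else 0 := fun z i => by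
    simp only [jac, e1, pd_add_const, pd_coord]
  have hT : PT (th τ s) (mT θ ini γ₀ γ₁) (mT (fun r => θ (r + s)) ini γ₀' γ₁') y := by
    filter_upwards [h1] with z ⟨q, q0, q1, _⟩ i j
    have d := (sm z q).differentiableAt (by simp)
    have e3 : ∀ {γ γ' : Field k}, γ' (ini z) = pb τ γ (ini z) →
        pb ini γ' z = pb (th τ s) (pb ini γ) z := fun {γ γ'} p => by
      rw [← P366D.pb_comp (di _) d, funext e0, P366D.pb_comp (q.differentiableAt (by simp)) (di _)]
      exact P366D.pb_congr .rfl p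
    have e4 : ds2 k i j = ∑ a, ∑ b, jac (th τ s) z a i * jac (th τ s) z b j * ds2 k a b := by
      simp [ds2, e2]
    rw [mT, e3 q0, e3 q1, e4]
    simp only [mT, e1]
    generalize pb ini γ₀ = A
    generalize pb ini γ₁ = B
    simp only [pb, Finset.mul_sum, ← Finset.sum_add_distrib]
    exact Finset.sum_congr rfl fun _ _ => Finset.sum_congr rfl fun _ _ => by ring
  have m' : Met (mT (fun r => θ (r + s)) ini γ₀' γ₁') :=
    met_mT (hθ.comp (contDiff_id.add contDiff_const)) (fun r => h01 _) m₀' m₁'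
  have hd : IsUnit (jac (th τ s) y).det := by
    have p := (m'.pos y).det_pos
    rw [hT.mat.self_of_nhds, Matrix.det_mul] at p
    exact (right_ne_zero_of_mul p.ne').isUnit
  refine RvE_law (Chg.ctx ⟨sm y h.self_of_nhds.1, hd⟩ (met_mT hθ h01 m₀ m₁) m' hT)
    (fun i => (sm_mC hθ s₀ s₁ i).differentiable (by simp) _) ?_
  filter_upwards [h1] with z ⟨q, _, _, q2⟩ i
  have d := (sm z q).differentiableAt (by simp)
  have e3 : ∀ {v v' : Fin k → E k → ℝ}, (∀ i, v' i (ini z) = pc τ v i (ini z)) →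
      pc ini v' i z = pc (th τ s) (pc ini v) i z := fun {v v'} p => by
    rw [← pc_comp (di _) d, funext e0, pc_comp (q.differentiableAt (by simp)) (di _)]
    simp only [pc, p]
  rw [mC, e3 fun i => (q2 i).1, e3 fun i => (q2 i).2]
  simp only [mC, e1]
  generalize pc ini v₀ = A
  generalize pc ini v₁ = B
  simp only [pc, Finset.mul_sum, ← Finset.sum_add_distrib]
  exact Finset.sum_congr rfl fun _ _ => by ring

end Vale.Agent.P210J
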