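import Vale.Agent.P210J.Trans
import Vale.Agent.P210E.Chain

/-!
# P210J: the transplantation lemma in the form of the skeleton
-/

open Metric Filter Topology Set
open scoped ContDiff
open Vale.Agent.P366M Vale.Agent.P366M.Gr Vale.Agent.P366M.Y.C Vale.Agent.P210G
open Vale.Agent.P366D (pull Sub)
open Vale.Agent.P210U (Up)

noncomputable section

namespace Vale.Agent.P210J

section Mf

variable {n : ℕ} {M : Type} [Mf0 n M] {K : Set M} {P : M → ℝ} {s s' : St n M}

theorem Reach.toE (h : Reach K P s s') (hg : Met s.1) (hv : CC ∞ s.2) :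
    P210E.Reach s.1 K P s s' := by
  induction h with
  | refl => exact .refl
  | @tail a b p q ih =>
    have o := Reach.ok p hg hv
    refine .tail ih ⟨fun x hx => ⟨(q.1.off x hx).1.symm, fun i => ((q.1.off x hx).2 i).symm⟩,
      fun σ hσ => ⟨met_lT cd_const (fun _ => hσ) o.1 q.1.met, cc_lC cd_const o.2 q.1.cc,
        fun x ξ => ?_, q.1.val σ hσ⟩⟩
    have p1 := mul_le_mul_of_nonneg_left (Reach.up p x ξ) (sub_nonneg.2 hσ.2)
    have p2 := mul_le_mul_of_nonneg_left (q.2 x ξ) hσ.1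
    simp only [P210E.mix, add_mul, Finset.sum_add_distrib, mul_assoc, ← Finset.mul_sum] at p1 p2 ⊢
    linarith

theorem Reach.ofE (h : P210E.Reach s.1 K P s s') : Reach K P s s' := by
  induction h with
  | refl => exact .refl
  | tail p q ih => exact .tail ih ⟨⟨q.right.met, q.right.cc, q.same.symm,
      fun σ hσ => (q.val σ hσ).le⟩, q.right.up⟩

theorem lT_self (s : M → ℝ) (g : Fld n M) : lT s g g = g := by funext x i j; rw [lT]; ring

theorem lC_self (s : M → ℝ) (v : Fin n → M → ℝ) : lC s v v = v := by funext i x; rw [lC]; ring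

end Mf

/-- **TRANS** -/
theorem transE : P210E.TRANS := by
  intro I l k X _ Z _ ι B u g Ω V KU KZ b hι hu hr hg hΩ hV hK hK' hZ hZK hc h0 hb η η0
  have ci := hι.emb.continuous
  have e3 : 0 < η / 3 := by positivity
  obtain ⟨K₁, k1, k2, k3⟩ := exists_compact_between hK' (isOpen_lt ((hV.comp ci).sub
    continuous_const) (sm_Rv (hι.met hg) (hΩ.pull le_rfl hι.sm)).cont) fun z hz =>
      show V (ι z) - η / 3 < _ by linarith [h0 z hz]
  obtain ⟨C, c1, c2, H⟩ := trans (A := ι '' (ι ⁻¹' KU) ∪ KUᶜ) (P := fun x => V x - η / 3)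
    ⟨hι, .of_forall hu, hr, fun S N a p => (hc S N a fun z q => p (.inl ⟨z, q, rfl⟩)).mono
      fun i q x w => by_cases (fun y => q x y w) fun y => p (.inr y)⟩ hg hΩ
    (hV.sub continuous_const) hZ k1 (fun z q => k2 (interior_subset (s := KU) (hZK q)))
    isOpen_interior hZK
    (fun x q => q.2.elim (fun ⟨z, _, p⟩ => ⟨z, p⟩) fun p => (p (interior_subset q.1)).elim)
    (fun z q => (k3 q).le) (show 0 < 2 * η / 3 by positivity)
  obtain ⟨T, U, t1, t2, -, t3, t4, t5, H⟩ := H b ((Reach.ofE (s := (pull ι g, pullC ι Ω)) hb).anti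
    fun z _ => by linarith)
  refine ⟨T, U, t1, t2, fun x q => ?_, Prod.ext t3 t4, fun S₀ => ?_⟩
  · have := t5 x fun p => q (interior_subset (c2 p))
    exact ⟨this.1.symm, fun j => (this.2 j).symm⟩
  obtain ⟨S, s1, H⟩ := H (|S₀| + 1)
  obtain ⟨ρ, ρ0, hρ⟩ := Metric.uniformContinuousOn_iff_le.1
    ((hK.union (k1.image ci)).uniformContinuousOn_of_continuous hV.continuousOn) _ e3
  obtain ⟨δ, δ0, J⟩ := jet hι hg hg hΩ hΩ (L := Empty) (a := fun _ _ => 0) (a' := fun _ _ => 0)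
    (fun m => m.elim) (fun m => m.elim) hK' k1 (fun z hz => mem_interior_iff_mem_nhds.1 (k2 hz))
    (lt_min ρ0 e3)
  obtain ⟨N, n1, n2, J⟩ := J _ ((slow_const ⟨le_rfl, zero_le_one⟩).mono δ0.le) I l u S
    (.of_forall hu) fun z _ => hr S (by linarith [abs_nonneg S₀]) z
  refine ⟨S, ?_⟩
  filter_upwards [H, J, hc S N n1 n2] with i H J hc
  obtain ⟨d, d1, d2, d3⟩ := H Ω (KU ∩ {x | |u i x| ≤ S}) hΩ (fun x p q => ⟨interior_subset p, q⟩)
    (fun _ _ _ _ => rfl) fun x p => by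
      obtain ⟨z, hz, σ, -, -, cl⟩ := J 0 ⟨le_rfl, zero_le_one⟩ x (hc x p.1 p.2) p.2
      have p1 := abs_le.1 (hρ x (.inl p.1) (ι z) (.inr ⟨z, hz, rfl⟩) (cl.d.trans (min_le_left _ _)))
      have p2 := abs_le.1 (cl.R.trans (min_le_right _ _))
      simp only [lT_self, lC_self] at p2
      have p3 : V (ι z) - η / 3 < _ := k3 hz
      linarith [p1.2, p2.1]
  refine ⟨d, (d1.toE (met_g hg (hu i)) hΩ).mono fun x _ => by linarith, fun x p => ?_⟩
  have ev : ∀ᶠ y in 𝓝 x, |u i y| ≤ |S₀| + 1 := ((hu i).cont.abs.continuousAt.eventually_lt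
    continuousAt_const (by linarith [le_abs_self S₀] : |u i x| < |S₀| + 1)).mono fun _ => le_of_lt
  refine ⟨ev.mono fun y q => (d2 y q).1, fun j => ev.mono fun y q => ?_⟩
  by_cases w : y ∈ C
  · exact (d2 y q).2 (c2 w) j
  · exact ((d3 y (.inl w)).2 j).trans ((t5 y w).2 j).symm

end Vale.Agent.P210J
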